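import Vale.Agent.P155.NT733.Conn
import Vale.Agent.P155.H904.Dist

/-!
# P155, NT, P2 (i) (helper730): the wall is connected along loop edges (near a point)
-/

namespace Vale.Agent.P155.NT730

open Vale.Agent.P155 T802 Finset NT Relation NT733

/-- wall edges; near `y` only edges of loops -/
def PL (T : Temp) (ω : Conf) (E : Set Pt) (y : Pt) (b : ℕ) (u w : Pt) : Prop :=
  u ∈ SS T E ∧ w ∈ SS T E ∧ ((dn y u < b ∨ dn y w < b) → (w = ω.1 u ∨ w = ω.2 u))

variable {T : Temp} {E : Set Pt} {ω : Conf} {V : Finset Pt} {xS t : ℤ} {i b : ℕ} {y : Pt}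

theorem PL.symm (hω : ω ∈ DD V) {u w : Pt} (h : PL T ω E y b u w) : PL T ω E y b w u := by
  obtain ⟨h1, h2, h3⟩ := h
  refine ⟨h2, h1, fun h4 => ?_⟩
  rcases h3 h4.symm with rfl | rfl
  · exact Or.inl (L.inv1 hω u).symm
  · exact Or.inr (L.inv2 hω u).symm

theorem pl_edge (hω : ω ∈ DD V) {u w : Pt} (h : u = w ∨ Adj u w) (hP : PL T ω E y b u w) :
    Linked (PL T ω E y b) u w := by
  rcases h with rfl | h
  · exact Linked.refl _ _
  · exact Linked.edge h hP (hP.symm hω)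

theorem line_dn (hl : (b : ℤ) ≤ |y.1 - xS|) (k : ℤ) : b ≤ dn y (xS, k) := by
  have h := H904.dn_spec y (xS, k)
  simp only at h
  rw [le_abs] at hl
  omega

/-- outside of the polygon -/
theorem ext_connL (hin : ∀ v, dn y v < b → v ∈ T.closedVerts) {u w : Pt}
    (hu : u ∉ T.closedVerts) (hw : w ∉ T.closedVerts) : Linked (PL T ω E y b) u w := by
  refine (ext_conn (T := T) (E := ∅) hu hw).mono ?_
  rintro p q ⟨h1, h2⟩
  have e1 : p ∉ T.closedVerts := h1.resolve_left (fun h => h.elim)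
  have e2 : q ∉ T.closedVerts := h2.resolve_left (fun h => h.elim)
  refine ⟨Or.inr e1, Or.inr e2, fun h => ?_⟩
  rcases h with h | h
  · exact absurd (hin p h) e1
  · exact absurd (hin q h) e2

theorem line_connL (hω : ω ∈ DD V) (hl : (b : ℤ) ≤ |y.1 - xS|) (hE : Et xS ω t ⊆ E) :
    ∀ (k : ℕ) (z : ℤ), z + k = t - 1 → Linked (PL T ω E y b) (xS, z) (xS, t - 1) := by
  intro k
  induction k with
  | zero =>
    intro z hz
    have : z = t - 1 := by push_cast at hz; omega
    rw [this]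
    exact Linked.refl _ _
  | succ k ih =>
    intro z hz
    have h1 : (xS, z) ∈ SS T E := Or.inl (hE (line_mem (by push_cast at hz; omega)))
    have h2 : (xS, z + 1) ∈ SS T E := Or.inl (hE (line_mem (by push_cast at hz; omega)))
    refine (pl_edge hω (Or.inr (by simp [Adj])) ⟨h1, h2, fun h => ?_⟩).trans
      (ih (z + 1) (by push_cast at hz ⊢; omega))
    have e1 := line_dn hl z
    have e2 := line_dn hl (z + 1)
    omega

theorem line_connL' (hω : ω ∈ DD V) (hl : (b : ℤ) ≤ |y.1 - xS|) (hE : Et xS ω t ⊆ E) {z : ℤ}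
    (hz : z < t) : Linked (PL T ω E y b) (xS, z) (xS, t - 1) :=
  line_connL hω hl hE (t - 1 - z).toNat z (by rw [Int.toNat_of_nonneg (by omega)]; ring)

theorem Et_connL (hω : ω ∈ DD V) (hl : (b : ℤ) ≤ |y.1 - xS|) (hE : Et xS ω t ⊆ E) {u : Pt}
    (hu : u ∈ Et xS ω t) : Linked (PL T ω E y b) u (xS, t - 1) := by
  obtain ⟨z, hz, hu⟩ := hu
  refine Linked.trans (Linked.symm ?_) (line_connL' hω hl hE hz)
  have hu' : Same ω (xS, z) u := hu
  unfold Same at hu'
  clear hu
  have key : ∀ w, ReflTransGen (fun u v => v = ω.1 u ∨ v = ω.2 u) (xS, z) w →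
      Linked (PL T ω E y b) (xS, z) w := by
    intro w hw
    induction hw with
    | refl => exact Linked.refl _ _
    | @tail b' c hb hs ih =>
      have h1 : b' ∈ SS T E := Or.inl (hE ⟨z, hz, hb⟩)
      have h2 : c ∈ SS T E := Or.inl (hE ⟨z, hz, hb.tail hs⟩)
      exact ih.trans (pl_edge hω (step_eq_or_adj hω hs) ⟨h1, h2, fun _ => hs⟩)
  exact key u hu'

theorem go_connL (hω : ω ∈ DD V) (hl : (b : ℤ) ≤ |y.1 - xS|) {j : ℕ} (hj : j ≤ i) :
    Linked (PL T ω (Eti xS ω t i) y b) (go ω (xS, t) j) (xS, t - 1) := by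
  induction j with
  | zero =>
    rw [Go.go_zero]
    refine pl_edge hω (Or.inr (by simp [Adj])) ⟨Or.inl (Or.inr ⟨0, hj, (Go.go_zero _ _).symm⟩),
      Or.inl (Or.inl (line_mem (by omega))), fun h => ?_⟩
    have e1 := line_dn hl t
    have e2 := line_dn hl (t - 1)
    omega
  | succ j ih =>
    refine Linked.trans (Linked.symm ?_) (ih (by omega))
    have h1 : go ω (xS, t) j ∈ SS T (Eti xS ω t i) := Or.inl (Or.inr ⟨j, by omega, rfl⟩)
    have h2 : go ω (xS, t) (j + 1) ∈ SS T (Eti xS ω t i) := Or.inl (Or.inr ⟨j + 1, hj, rfl⟩)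
    exact pl_edge hω (step_eq_or_adj hω (Go.go_step ω (xS, t) j))
      ⟨h1, h2, fun _ => Go.go_step ω (xS, t) j⟩

/-- **the wall is connected along loop edges** -/
theorem connL (hω : ω ∈ DD V) (hin : ∀ v, dn y v < b → v ∈ T.closedVerts)
    (hl : (b : ℤ) ≤ |y.1 - xS|) {u : Pt} (hu : u ∈ SS T (Eti xS ω t i)) :
    Linked (PL T ω (Eti xS ω t i) y b) u (xS, t - 1) := by
  rcases hu with (hu | ⟨j, hj, rfl⟩) | hu
  · exact Et_connL hω hl (fun _ h => Or.inl h) hu
  · exact go_connL hω hl hj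
  · obtain ⟨z, hz, h⟩ := exists_line_outside T xS t
    exact (ext_connL hin hu h).trans (line_connL' hω hl (fun _ h => Or.inl h) hz)

end Vale.Agent.P155.NT730
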