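import Vale.Agent.P155.NT730.Side

/-!
# P155, NT, P2 (i) (helper730): every side class at the ring contains a face of a crossing strand
-/

namespace Vale.Agent.P155.NT730

open Vale.Agent.P155 T802 Finset NT733 NT Function

variable {ω : Conf} {E : Set Pt} {y : Pt} {a b s : ℕ} {f f' g : Pt} {V : Finset Pt}

/-- the hypotheses on the explored set near `y` -/
structure Near (ω : Conf) (E : Set Pt) (y : Pt) (b : ℕ) : Prop where
  cl : ∀ v ∈ E, dn y v < b → ω.1 v ∈ E ∧ ω.2 v ∈ E
  loop : ∀ v ∈ E, dn y v < b → ω.1 v ≠ ω.2 v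
  out : ∀ v ∈ E, dn y v < b → ∃ k, b ≤ dn y ((SW.suc ω)^[k] v)

theorem side_turn (hω : ω ∈ DD V) {v : Pt} (hv : v ∈ E) (ha : a < dn y v) (hb : dn y v < b)
    (hl : ω.1 v ≠ ω.2 v) (hf : v ∈ corners f) :
    Side ω E y a b f (G1 v (SW.suc ω v)) ∨ Side ω E y a b f (G2 v (SW.suc ω v)) := by
  have hvV := L.mem_V_of_ne hω hl
  have h1 := L.adj1 hω hvV
  have h2 := L.adj2 hω hvV
  have hst : ∀ p n : Pt, ((p = ω.1 v ∧ n = ω.2 v) ∨ (p = ω.2 v ∧ n = ω.1 v)) →
      ∀ f f' w, Adj v w → w ≠ p → w ≠ n → v ∈ corners f → v ∈ corners f' → w ∈ corners f →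
      w ∈ corners f' → Side ω E y a b f f' := by
    intro p n hpn f f' w k1 k2 k3 k4 k5 k6 k7
    refine Relation.ReflTransGen.single ⟨v, w, hv, ha, hb, k1, ?_, ?_, k4, k5, k6, k7⟩
    · rcases hpn with ⟨rfl, rfl⟩ | ⟨rfl, rfl⟩
      · exact k2
      · exact k3
    · rcases hpn with ⟨rfl, rfl⟩ | ⟨rfl, rfl⟩
      · exact k3
      · exact k2
  rcases suc_or ω v with h | h <;> rw [h]
  · exact turn_aux (S := Side ω E y a b) Side.refl (fun _ _ => Side.symm) (fun _ _ _ => Side.trans)
      h2 h1 hl.symm (hst _ _ (Or.inr ⟨rfl, rfl⟩)) hf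
  · exact turn_aux (S := Side ω E y a b) Side.refl (fun _ _ => Side.symm) (fun _ _ _ => Side.trans)
      h1 h2 hl (hst _ _ (Or.inl ⟨rfl, rfl⟩)) hf

/-- along the strand the class contains one of the two faces of every edge -/
theorem side_along (hω : ω ∈ DD V) {v : Pt} (hl : ω.1 v ≠ ω.2 v) {m : ℕ}
    (hin : ∀ j ≤ m, (SW.suc ω)^[j] v ∈ E ∧ a < dn y ((SW.suc ω)^[j] v) ∧
      dn y ((SW.suc ω)^[j] v) < b) (hf : v ∈ corners f) : ∀ j ≤ m,
    Side ω E y a b f (G1 ((SW.suc ω)^[j] v) (SW.suc ω ((SW.suc ω)^[j] v))) ∨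
    Side ω E y a b f (G2 ((SW.suc ω)^[j] v) (SW.suc ω ((SW.suc ω)^[j] v))) := by
  intro j
  induction j with
  | zero =>
    intro hj
    obtain ⟨h1, h2, h3⟩ := hin 0 hj
    exact side_turn hω h1 h2 h3 hl hf
  | succ j ih =>
    intro hj
    obtain ⟨h1, h2, h3⟩ := hin (j + 1) hj
    have hA := TC.adj_suc hω (TC.ne_iter hω hl j)
    obtain ⟨⟨_, g1⟩, _, g2⟩ := G_corner hA
    have e : (SW.suc ω)^[j + 1] v = SW.suc ω ((SW.suc ω)^[j] v) := iterate_succ_apply' _ _ _
    rw [← e] at g1 g2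
    have hl' := TC.ne_iter hω hl (j + 1)
    rcases ih (by omega) with k | k
    · rcases side_turn (a := a) (b := b) hω h1 h2 h3 hl' g1 with k' | k'
      · exact Or.inl ((e ▸ k).trans (e ▸ k'))
      · exact Or.inr ((e ▸ k).trans (e ▸ k'))
    · rcases side_turn (a := a) (b := b) hω h1 h2 h3 hl' g2 with k' | k'
      · exact Or.inl ((e ▸ k).trans (e ▸ k'))
      · exact Or.inr ((e ▸ k).trans (e ▸ k'))

theorem iter_dn (hω : ω ∈ DD V) {v : Pt} (hl : ω.1 v ≠ ω.2 v) (j : ℕ) :
    dn y ((SW.suc ω)^[j + 1] v) ≤ dn y ((SW.suc ω)^[j] v) + 1 ∧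
    dn y ((SW.suc ω)^[j] v) ≤ dn y ((SW.suc ω)^[j + 1] v) + 1 := by
  have hA := TC.adj_suc hω (TC.ne_iter hω hl j)
  rw [iterate_succ_apply']
  have h1 := H924.dn_adj hA
  have h2 := H924.dn_adj (L.adj_symm hA)
  have h3 := H924.dn_triangle y ((SW.suc ω)^[j] v) (SW.suc ω ((SW.suc ω)^[j] v))
  have h4 := H924.dn_triangle y (SW.suc ω ((SW.suc ω)^[j] v)) ((SW.suc ω)^[j] v)
  exact ⟨by omega, by omega⟩

/-- **every explored strand at the ring crosses one of the two half annuli** -/
theorem exists_cross (hω : ω ∈ DD V) (hN : Near ω E y b) {v : Pt} (hv : v ∈ E)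
    (h1 : s ≤ dn y v + 1) (h2 : dn y v ≤ s + 1) (has : a + 1 < s) (hsb : s + 1 < b) :
    ∃ j, (∀ i ≤ j, (SW.suc ω)^[i] v ∈ E ∧ a < dn y ((SW.suc ω)^[i] v) ∧
      dn y ((SW.suc ω)^[i] v) < b) ∧
      ((∃ m, ACr ω y a (s - 1) ((SW.suc ω)^[j] v) m) ∨
        ∃ m, ACr ω y (s + 1) b ((SW.suc ω)^[j] v) m) := by
  classical
  have hvb : dn y v < b := by omega
  have hl := hN.loop v hv hvb
  set u : ℕ → Pt := fun k => (SW.suc ω)^[k] v with hu
  have hstep : ∀ k, dn y (u (k + 1)) ≤ dn y (u k) + 1 ∧ dn y (u k) ≤ dn y (u (k + 1)) + 1 :=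
    fun k => iter_dn hω hl k
  have hex : ∃ k, dn y (u k) ≤ a ∨ b ≤ dn y (u k) := by
    obtain ⟨k, hk⟩ := hN.out v hv hvb
    exact ⟨k, Or.inr hk⟩
  set m := Nat.find hex with hm
  have hmin : ∀ k < m, a < dn y (u k) ∧ dn y (u k) < b := by
    intro k hk
    have := Nat.find_min hex hk
    omega
  have hspec := Nat.find_spec hex
  rw [← hm] at hspec
  have hE : ∀ k ≤ m, u k ∈ E := by
    intro k
    induction k with
    | zero => intro _; exact hv
    | succ k ih =>
      intro hk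
      have h3 := hN.cl _ (ih (by omega)) (hmin k (by omega)).2
      have e : u (k + 1) = SW.suc ω (u k) := iterate_succ_apply' _ _ _
      rw [e]
      rcases suc_or ω (u k) with h | h <;> rw [h]
      · exact h3.1
      · exact h3.2
  have hu0 : u 0 = v := rfl
  have hm1 : 1 ≤ m := by
    by_contra hc
    have : m = 0 := by omega
    rw [this, hu0] at hspec
    omega
  have hprev := hmin (m - 1) (by omega)
  have hst := hstep (m - 1)
  rw [Nat.sub_add_cancel hm1] at hst
  clear_value m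
  rcases hspec with hs | hs
  · -- exit inwards
    have hdm : dn y (u m) = a := by omega
    set P : ℕ → Prop := fun k => s - 1 ≤ dn y (u k) with hP
    have hP0 : P 0 := by simp only [hP, hu0]; omega
    have hg1 : P (Nat.findGreatest P (m - 1)) := Nat.findGreatest_spec (Nat.zero_le _) hP0
    have hg2 : Nat.findGreatest P (m - 1) ≤ m - 1 := Nat.findGreatest_le _
    have hg3 : ∀ k, Nat.findGreatest P (m - 1) < k → k ≤ m - 1 → ¬ P k := fun k h1 h2 =>
      Nat.findGreatest_is_greatest h1 h2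
    set l := Nat.findGreatest P (m - 1) with hl'
    clear_value l
    have hnext : dn y (u (l + 1)) < s - 1 := by
      rcases Nat.lt_or_ge (l + 1) m with h | h
      · have := hg3 (l + 1) (by omega) (by omega)
        simp only [hP] at this
        omega
      · have : l + 1 = m := by omega
        rw [this, hdm]; omega
    have hls := hstep l
    have hdl : dn y (u l) = s - 1 := by
      simp only [hP] at hg1
      omega
    refine ⟨l, fun i hi => ⟨hE i (by omega), hmin i (by omega)⟩, Or.inl ⟨m - l, ?_, ?_, ?_⟩⟩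
    · exact TC.ne_iter hω hl l
    · intro j hj0 hj1
      rw [← iterate_add_apply, add_comm j l]
      have h3 : ¬ (s - 1 ≤ dn y ((SW.suc ω)^[l + j] v)) := hg3 (l + j) (by omega) (by omega)
      exact ⟨(hmin (l + j) (by omega)).1, by omega⟩
    · right
      refine ⟨hdl, ?_⟩
      rw [← iterate_add_apply, Nat.sub_add_cancel (by omega)]
      exact hdm
  · -- exit outwards
    have hdm : dn y (u m) = b := by omega
    set P : ℕ → Prop := fun k => dn y (u k) ≤ s + 1 with hP
    have hP0 : P 0 := by simp only [hP, hu0]; omega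
    have hg1 : P (Nat.findGreatest P (m - 1)) := Nat.findGreatest_spec (Nat.zero_le _) hP0
    have hg2 : Nat.findGreatest P (m - 1) ≤ m - 1 := Nat.findGreatest_le _
    have hg3 : ∀ k, Nat.findGreatest P (m - 1) < k → k ≤ m - 1 → ¬ P k := fun k h1 h2 =>
      Nat.findGreatest_is_greatest h1 h2
    set l := Nat.findGreatest P (m - 1) with hl'
    clear_value l
    have hnext : s + 1 < dn y (u (l + 1)) := by
      rcases Nat.lt_or_ge (l + 1) m with h | h
      · have := hg3 (l + 1) (by omega) (by omega)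
        simp only [hP] at this
        omega
      · have : l + 1 = m := by omega
        rw [this, hdm]; omega
    have hls := hstep l
    have hdl : dn y (u l) = s + 1 := by
      simp only [hP] at hg1
      omega
    refine ⟨l, fun i hi => ⟨hE i (by omega), hmin i (by omega)⟩, Or.inr ⟨m - l, ?_, ?_, ?_⟩⟩
    · exact TC.ne_iter hω hl l
    · intro j hj0 hj1
      rw [← iterate_add_apply, add_comm j l]
      have h3 : ¬ (dn y ((SW.suc ω)^[l + j] v) ≤ s + 1) := hg3 (l + j) (by omega) (by omega)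
      exact ⟨by omega, (hmin (l + j) (by omega)).2⟩
    · left
      refine ⟨hdl, ?_⟩
      rw [← iterate_add_apply, Nat.sub_add_cancel (by omega)]
      exact hdm

end Vale.Agent.P155.NT730
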