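import Vale.Agent.P155.NT733.Conn
import Vale.Agent.P155.NT814.Ring
import Vale.Agent.P155.A801.NTF

/-!
# P155, NT, P2 (i) (helper730): edge values, ring edges, crossings of a ring
-/

namespace Vale.Agent.P155.NT730

open Vale.Agent.P155 T802 Finset NT733 NT

/-- value of the edge set `(A, B)` on the edge `{u, w}` -/
noncomputable def ev (A B : Pt → ZMod 2) (u w : Pt) : ZMod 2 :=
  if w = (u.1, u.2 + 1) then A u else if u = (w.1, w.2 + 1) then A w
  else if w = (u.1 + 1, u.2) then B u else if u = (w.1 + 1, w.2) then B w else 0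

variable {A B : Pt → ZMod 2}

theorem ev_comm (u w : Pt) : ev A B u w = ev A B w u := by
  obtain ⟨x, y⟩ := u
  obtain ⟨p, q⟩ := w
  unfold ev
  simp only [Prod.mk.injEq]
  split_ifs <;> first | rfl | (exfalso; omega)

theorem ev_up (x y : ℤ) : ev A B (x, y) (x, y + 1) = A (x, y) := by
  unfold ev
  rw [if_pos rfl]

theorem ev_right (x y : ℤ) : ev A B (x, y) (x + 1, y) = B (x, y) := by
  unfold ev
  rw [if_neg (by simp), if_neg (by simp), if_pos rfl]

theorem adj_cases {u w : Pt} (h : Adj u w) : w = (u.1, u.2 + 1) ∨ u = (w.1, w.2 + 1) ∨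
    w = (u.1 + 1, u.2) ∨ u = (w.1 + 1, w.2) := by
  rw [adj_iff'] at h
  rcases h with ⟨h1, h2 | h2⟩ | ⟨h1, h2 | h2⟩
  · exact Or.inr (Or.inl (Prod.ext h1 h2))
  · exact Or.inl (Prod.ext h1.symm h2)
  · exact Or.inr (Or.inr (Or.inr (Prod.ext h2 h1)))
  · exact Or.inr (Or.inr (Or.inl (Prod.ext h2 h1.symm)))

/-- across the edge `{u, w}` the parity changes by the value of the edge -/
theorem par_ev (h : EvenSet A B) {u w f f' : Pt} (hA : Adj u w) (hf : u ∈ corners f)
    (hf' : u ∈ corners f') (hw : w ∈ corners f) (hw' : w ∈ corners f') (hne : f ≠ f') :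
    par A f + par A f' = ev A B u w := by
  have key : ∀ u w f f' : Pt, (w = (u.1, u.2 + 1) ∨ w = (u.1 + 1, u.2)) → u ∈ corners f →
      u ∈ corners f' → w ∈ corners f → w ∈ corners f' → f ≠ f' →
      par A f + par A f' = ev A B u w := by
    rintro ⟨x, y⟩ w ⟨p, q⟩ ⟨p', q'⟩ hw0 h1 h2 h3 h4 h5
    rw [mem_corners] at h1 h2 h3 h4
    simp only [ne_eq, Prod.mk.injEq] at h1 h2 h3 h4 h5
    rcases hw0 with rfl | rfl
    · simp only at h3 h4 ⊢
      rw [ev_up]
      have e := par_right h x y
      have hq : q = y := by omega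
      have hq' : q' = y := by omega
      subst hq; subst hq'
      have hp : (p = x ∧ p' = x - 1) ∨ (p = x - 1 ∧ p' = x) := by omega
      rcases hp with ⟨rfl, rfl⟩ | ⟨rfl, rfl⟩
      · rw [e]
        have : ∀ s t : ZMod 2, s + t + s = t := by decide
        exact this _ _
      · rw [e]
        have : ∀ s t : ZMod 2, s + (s + t) = t := by decide
        exact this _ _
    · simp only at h3 h4 ⊢
      rw [ev_right]
      have e := par_up h x y
      have hq : p = x := by omega
      have hq' : p' = x := by omega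
      subst hq; subst hq'
      have hp : (q = y ∧ q' = y - 1) ∨ (q = y - 1 ∧ q' = y) := by omega
      rcases hp with ⟨rfl, rfl⟩ | ⟨rfl, rfl⟩
      · rw [e]
        have : ∀ s t : ZMod 2, s + t + s = t := by decide
        exact this _ _
      · rw [e]
        have : ∀ s t : ZMod 2, s + (s + t) = t := by decide
        exact this _ _
  rcases adj_cases hA with h1 | h1 | h1 | h1
  · exact key u w f f' (Or.inl h1) hf hf' hw hw' hne
  · rw [ev_comm]
    exact key w u f f' (Or.inl h1) hw hw' hf hf' hne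
  · exact key u w f f' (Or.inr h1) hf hf' hw hw' hne
  · rw [ev_comm]
    exact key w u f f' (Or.inr h1) hw hw' hf hf' hne

theorem ev_edge {p q u w : Pt} (h : Adj u w) : ev (ea p q) (eb p q) u w =
    ind ((p = u ∧ q = w) ∨ (p = w ∧ q = u)) := by
  have key : ∀ u w : Pt, (w = (u.1, u.2 + 1) ∨ w = (u.1 + 1, u.2)) →
      ev (ea p q) (eb p q) u w = ind ((p = u ∧ q = w) ∨ (p = w ∧ q = u)) := by
    rintro ⟨x, y⟩ w (rfl | rfl)
    · rw [ev_up, ea_eq]
      exact ind_congr (by tauto)
    · rw [ev_right, eb_eq]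
      exact ind_congr (by tauto)
  rcases adj_cases h with h1 | h1 | h1 | h1
  · exact key u w (Or.inl h1)
  · rw [ev_comm, key w u (Or.inl h1)]
    exact ind_congr (by tauto)
  · exact key u w (Or.inr h1)
  · rw [ev_comm, key w u (Or.inr h1)]
    exact ind_congr (by tauto)

theorem ev_add (A' B' : Pt → ZMod 2) (u w : Pt) : ev (fun v => A v + A' v) (fun v => B v + B' v) u w =
    ev A B u w + ev A' B' u w := by
  unfold ev
  split_ifs <;> simp

theorem ev_zero (u w : Pt) : ev (fun _ => 0) (fun _ => 0) u w = 0 := by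
  unfold ev
  split_ifs <;> rfl

theorem ev_path (v : ℕ → Pt) (m : ℕ) (u w : Pt) : ev (pathA v m) (pathB v m) u w =
    ∑ i ∈ range m, ev (ea (v i) (v (i + 1))) (eb (v i) (v (i + 1))) u w := by
  induction m with
  | zero =>
    have e1 : pathA v 0 = fun _ => 0 := by funext u; simp [pathA]
    have e2 : pathB v 0 = fun _ => 0 := by funext u; simp [pathB]
    rw [e1, e2, ev_zero, sum_range_zero]
  | succ k ih =>
    have e1 : pathA v (k + 1) = fun u => pathA v k u + ea (v k) (v (k + 1)) u := by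
      funext u; simp [pathA, sum_range_succ]
    have e2 : pathB v (k + 1) = fun u => pathB v k u + eb (v k) (v (k + 1)) u := by
      funext u; simp [pathB, sum_range_succ]
    rw [e1, e2, ev_add, ih, sum_range_succ]

/-! ### the edges of a ring -/

/-- inner end of the ring edge `j` -/
def WI (y : Pt) (s j : ℕ) : Pt := wi y s ((j % (8 * s) : ℕ) : ℤ)

/-- outer end of the ring edge `j` -/
def WO (y : Pt) (s j : ℕ) : Pt := wo y s ((j % (8 * s) : ℕ) : ℤ)

variable {y : Pt} {s : ℕ}

theorem WI_per (j : ℕ) : WI y s (j + 8 * s) = WI y s j := by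
  unfold WI
  rw [Nat.add_mod_right]

theorem WO_per (j : ℕ) : WO y s (j + 8 * s) = WO y s j := by
  unfold WO
  rw [Nat.add_mod_right]

theorem wiwo_adj {t : ℤ} : Adj (wi y s t) (wo y s t) := by
  rw [adj_iff']
  unfold wi wo
  split_ifs <;> dsimp only <;> omega

theorem adj_WIWO (_hs : 1 ≤ s) (j : ℕ) : Adj (WI y s j) (WO y s j) := by
  exact wiwo_adj

theorem WI_corner (hs : 1 ≤ s) (j : ℕ) : WI y s j ∈ corners (R y s j) ∧
    WI y s j ∈ corners (R y s (j + 1)) := by
  have := Nat.mod_lt j (y := 8 * s) (by omega)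
  rw [R_succ hs]
  exact (ring_corner (by positivity) (by exact_mod_cast this)).2 (Or.inl rfl)

theorem WO_corner (hs : 1 ≤ s) (j : ℕ) : WO y s j ∈ corners (R y s j) ∧
    WO y s j ∈ corners (R y s (j + 1)) := by
  have := Nat.mod_lt j (y := 8 * s) (by omega)
  rw [R_succ hs]
  exact (ring_corner (by positivity) (by exact_mod_cast this)).2 (Or.inr rfl)

theorem R_ne (hs : 1 ≤ s) (j : ℕ) : R y s j ≠ R y s (j + 1) := by
  intro h
  have := R_step (z := y) hs j
  rw [← h, mem_nbrs, adj_iff'] at this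
  omega

theorem WI_dn (hs : 1 ≤ s) (j : ℕ) : s ≤ dn y (WI y s j) + 1 ∧ dn y (WI y s j) ≤ s := by
  have h := Nat.mod_lt j (y := 8 * s) (by omega)
  have h' : ((j % (8 * s) : ℕ) : ℤ) < 8 * s := by exact_mod_cast h
  have h0 : (0 : ℤ) ≤ ((j % (8 * s) : ℕ) : ℤ) := by positivity
  have h3 := H904.dn_spec y (WI y s j)
  unfold WI wi at h3 ⊢
  generalize ((j % (8 * s) : ℕ) : ℤ) = t at *
  split_ifs at * <;> dsimp only at * <;> omega

theorem WO_dn (hs : 1 ≤ s) (j : ℕ) : s ≤ dn y (WO y s j) ∧ dn y (WO y s j) ≤ s + 1 := by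
  have h := Nat.mod_lt j (y := 8 * s) (by omega)
  have h' : ((j % (8 * s) : ℕ) : ℤ) < 8 * s := by exact_mod_cast h
  have h0 : (0 : ℤ) ≤ ((j % (8 * s) : ℕ) : ℤ) := by positivity
  have h3 := H904.dn_spec y (WO y s j)
  unfold WO wo at h3 ⊢
  generalize ((j % (8 * s) : ℕ) : ℤ) = t at *
  split_ifs at * <;> dsimp only at * <;> omega

/-- corners of the faces of the ring -/
theorem R_corner_dn (hs : 1 ≤ s) {j : ℕ} {v : Pt} (hv : v ∈ corners (R y s j)) :
    s ≤ dn y v + 1 ∧ dn y v ≤ s + 1 := by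
  have h1 := R_dn (z := y) hs j
  rw [dn_eq_iff] at h1
  rw [mem_corners] at hv
  have h3 := H904.dn_spec y v
  omega

theorem wi_step {t : ℤ} (h0 : 0 ≤ t) (h1 : t + 1 < 8 * s) :
    wi y s (t + 1) = wi y s t ∨ Adj (wi y s t) (wi y s (t + 1)) := by
  rw [adj_iff']
  unfold wi
  split_ifs <;> simp only [Prod.mk.injEq, true_and, and_true, true_or, or_true, and_self] <;> omega

theorem WI_next (hs : 1 ≤ s) (j : ℕ) : WI y s (j + 1) = WI y s j ∨
    Adj (WI y s j) (WI y s (j + 1)) := by
  have h := Nat.mod_lt j (y := 8 * s) (by omega)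
  have h0 : (0 : ℤ) ≤ ((j % (8 * s) : ℕ) : ℤ) := by positivity
  by_cases h1 : j % (8 * s) + 1 = 8 * s
  · have h2 : (j + 1) % (8 * s) = 0 := by
      rw [Nat.add_mod, Nat.mod_eq_of_lt (a := 1) (by omega), h1, Nat.mod_self]
    left
    unfold WI
    rw [h2]
    have h3 : ((j % (8 * s) : ℕ) : ℤ) = 8 * s - 1 := by
      have : ((j % (8 * s) : ℕ) : ℤ) + 1 = 8 * s := by exact_mod_cast h1
      omega
    rw [h3]
    unfold wi
    split_ifs <;> simp only [Prod.mk.injEq] <;> first | omega | (push_cast at *; omega)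
  · have h2 : (j + 1) % (8 * s) = j % (8 * s) + 1 := by
      rw [Nat.add_mod, Nat.mod_eq_of_lt (a := 1) (by omega), Nat.mod_eq_of_lt (by omega)]
    have h4 : ((j % (8 * s) : ℕ) : ℤ) + 1 < 8 * s := by
      have : j % (8 * s) + 1 < 8 * s := by omega
      exact_mod_cast this
    have h5 : (((j % (8 * s) + 1 : ℕ)) : ℤ) = ((j % (8 * s) : ℕ) : ℤ) + 1 := by push_cast; ring
    unfold WI
    rw [h2, h5]
    exact wi_step h0 h4

/-- the parity along the ring -/
theorem par_ring (h : EvenSet A B) (hs : 1 ≤ s) (j : ℕ) :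
    par A (R y s j) + par A (R y s (j + 1)) = ev A B (WI y s j) (WO y s j) :=
  par_ev h (adj_WIWO hs j) (WI_corner hs j).1 (WI_corner hs j).2 (WO_corner hs j).1
    (WO_corner hs j).2 (R_ne hs j)

open Classical in
/-- inside the ring (mod 2) -/
noncomputable def wn (y : Pt) (s : ℕ) (u : Pt) : ZMod 2 := ind (Win y s u)

/-- one step crosses the ring iff exactly one end is inside -/
theorem cross_edge (hs : 1 ≤ s) {p q : Pt} (h : Adj p q) :
    ∑ t ∈ range (8 * s), ev (ea p q) (eb p q) (WI y s t) (WO y s t) = wn y s p + wn y s q := by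
  have hm : ∀ t ∈ range (8 * s), t % (8 * s) = t := fun t ht => Nat.mod_eq_of_lt (mem_range.1 ht)
  have hin : ∀ t ∈ range (8 * s), Win y s (WI y s t) := by
    intro t ht
    unfold WI
    rw [hm t ht]
    exact wi_win (by positivity) (by exact_mod_cast mem_range.1 ht)
  have hout : ∀ t ∈ range (8 * s), ¬ Win y s (WO y s t) := by
    intro t ht
    unfold WO
    rw [hm t ht]
    exact wo_win (by positivity) (by exact_mod_cast mem_range.1 ht)
  have key : ∀ p q : Pt, Adj p q → Win y s p → ¬ Win y s q →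
      ∑ t ∈ range (8 * s), ev (ea p q) (eb p q) (WI y s t) (WO y s t) = 1 := by
    intro p q h hp hq
    obtain ⟨t, ht0, ht1, htp, htq⟩ := exists_t hp hq h
    obtain ⟨t, rfl⟩ := Int.eq_ofNat_of_zero_le ht0
    have ht : t < 8 * s := by exact_mod_cast ht1
    have e1 : WI y s t = p := by
      unfold WI; rw [Nat.mod_eq_of_lt ht]; exact htp.symm
    have e2 : WO y s t = q := by
      unfold WO; rw [Nat.mod_eq_of_lt ht]; exact htq.symm
    rw [sum_eq_single_of_mem t (mem_range.2 ht)]
    · rw [ev_edge (adj_WIWO hs t), ind_true]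
      exact Or.inl ⟨e1.symm, e2.symm⟩
    · intro t' ht' hne
      rw [ev_edge (adj_WIWO hs t'), ind_false]
      rintro (⟨h1, h2⟩ | ⟨h1, h2⟩)
      · apply hne
        have h3 : wi y s t = wi y s t' := by
          have : WI y s t = WI y s t' := e1.trans h1
          unfold WI at this
          rwa [Nat.mod_eq_of_lt ht, hm t' ht'] at this
        have h4 : wo y s t = wo y s t' := by
          have : WO y s t = WO y s t' := e2.trans h2
          unfold WO at this
          rwa [Nat.mod_eq_of_lt ht, hm t' ht'] at this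
        have := wiwo_inj (by positivity) (by exact_mod_cast ht) (by positivity)
          (by exact_mod_cast mem_range.1 ht') h3 h4
        exact_mod_cast this.symm
      · exact hout t' ht' (h1 ▸ hp)
  unfold wn
  by_cases h1 : Win y s p <;> by_cases h2 : Win y s q
  · rw [ind_true h1, ind_true h2, z2]
    apply sum_eq_zero
    intro t ht
    rw [ev_edge (adj_WIWO hs t), ind_false]
    rintro (⟨h3, h4⟩ | ⟨h3, h4⟩)
    · exact hout t ht (h4 ▸ h2)
    · exact hout t ht (h3 ▸ h1)
  · rw [ind_true h1, ind_false h2, add_zero]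
    exact key p q h h1 h2
  · rw [ind_false h1, ind_true h2, zero_add]
    have := key q p (L.adj_symm h) h2 h1
    rw [← this]
    apply sum_congr rfl
    intro t _
    rw [funext (ea_comm p q), funext (eb_comm p q)]
  · rw [ind_false h1, ind_false h2, add_zero]
    apply sum_eq_zero
    intro t ht
    rw [ev_edge (adj_WIWO hs t), ind_false]
    rintro (⟨h3, h4⟩ | ⟨h3, h4⟩)
    · exact h1 (h3 ▸ hin t ht)
    · exact h2 (h4 ▸ hin t ht)

/-- the number of crossings of a path -/
theorem cross_path (hs : 1 ≤ s) {v : ℕ → Pt} {m : ℕ} (h : ∀ i < m, Adj (v i) (v (i + 1))) :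
    ∑ t ∈ range (8 * s), ev (pathA v m) (pathB v m) (WI y s t) (WO y s t) =
      wn y s (v 0) + wn y s (v m) := by
  have e1 : ∑ t ∈ range (8 * s), ev (pathA v m) (pathB v m) (WI y s t) (WO y s t) =
      ∑ i ∈ range m, (wn y s (v i) + wn y s (v (i + 1))) := by
    rw [sum_congr rfl (fun t _ => ev_path v m (WI y s t) (WO y s t)), sum_comm]
    apply sum_congr rfl
    intro i hi
    exact cross_edge hs (h i (mem_range.1 hi))
  rw [e1]
  clear e1 h
  induction m with
  | zero => rw [sum_range_zero, z2]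
  | succ m ih =>
    rw [sum_range_succ, ih]
    have : ∀ p q r : ZMod 2, p + q + (q + r) = p + r := by decide
    exact this _ _ _

end Vale.Agent.P155.NT730
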