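import Vale.Agent.P155.NT730.Zf
import Vale.Agent.P155.NT730.ConnL
import Vale.Agent.P155.NT34.Small2
import Vale.Agent.P155.NT904.Outermost

/-!
# P155, NT, P2 (helper730): a strand which is glued to the old walls across an annulus visits the
neighbourhood of one of finitely many measurable points
-/

namespace Vale.Agent.P155.NT730

open Vale.Agent.P155 T802 Finset NT733 NT Function NT862 NT924 NT904

variable {T : Temp} {ω : Conf} {E : Set Pt} {y : Pt} {s a b : ℕ} {v1 : Pt}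
  {A B A' B' : Pt → ZMod 2} {V : Finset Pt}

theorem ev_cases {u w : Pt} (hA : Adj u w) (h : ev A B u w ≠ 0) :
    (A u ≠ 0 ∧ w = (u.1, u.2 + 1)) ∨ (A w ≠ 0 ∧ u = (w.1, w.2 + 1)) ∨
    (B u ≠ 0 ∧ w = (u.1 + 1, u.2)) ∨ (B w ≠ 0 ∧ u = (w.1 + 1, w.2)) := by
  obtain ⟨x, z⟩ := u
  obtain ⟨p, q⟩ := w
  rcases adj_cases hA with h1 | h1 | h1 | h1
  · rw [h1, ev_up] at h
    exact Or.inl ⟨h, h1⟩
  · rw [h1, ev_comm, ev_up] at h
    exact Or.inr (Or.inl ⟨h, h1⟩)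
  · rw [h1, ev_right] at h
    exact Or.inr (Or.inr (Or.inl ⟨h, h1⟩))
  · rw [h1, ev_comm, ev_right] at h
    exact Or.inr (Or.inr (Or.inr ⟨h, h1⟩))

theorem ev_congr {u w : Pt} (hA : Adj u w) (h1 : w = (u.1, u.2 + 1) → A u = A' u)
    (h2 : u = (w.1, w.2 + 1) → A w = A' w) (h3 : w = (u.1 + 1, u.2) → B u = B' u)
    (h4 : u = (w.1 + 1, w.2) → B w = B' w) : ev A B u w = ev A' B' u w := by
  rcases adj_cases hA with h | h | h | h
  · have k := h1 h
    obtain ⟨x, z⟩ := u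
    rw [h, ev_up, ev_up]; exact k
  · have k := h2 h
    obtain ⟨x, z⟩ := w
    rw [h, ev_comm, ev_up, ev_comm, ev_up]; exact k
  · have k := h3 h
    obtain ⟨x, z⟩ := u
    rw [h, ev_right, ev_right]; exact k
  · have k := h4 h
    obtain ⟨x, z⟩ := w
    rw [h, ev_comm, ev_right, ev_comm, ev_right]; exact k

/-- **P2 (i) + (ii)** -/
theorem glued_exists (hω : ω ∈ DD V) {base : Pt}
    (hW : ∀ w ∈ SS T E, Linked (PL T ω E y b) w base) (has : a + 1 < s) (hsb : s + 1 < b)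
    {v : ℕ → Pt} {M h : ℕ} (hadj : ∀ i < M, Adj (v i) (v (i + 1))) (hv : ∀ i ≤ M, v i ∉ SS T E)
    (hnear : ∀ i ≤ M, ∃ w ∈ SS T E, dn (v i) w ≤ h)
    (hin : dn y (v 0) + h ≤ a) (hout : b + h ≤ dn y (v M))
    (hv1 : NT802.Conn {x | x ∉ SS T E} v1 (v 0)) :
    ∃ z ∈ Zf T ω E y s a b v1, (∃ i ≤ M, z = v i) ∨ ∃ i < M, ∃ κ : Set Pt, v i ∈ κ ∧
      v (i + 1) ∈ κ ∧ (∀ u ∈ κ, u ∉ SS T E ∧ dn (v i) u ≤ h + 1 ∧ NT802.Conn κ (v i) u) ∧
      (∃ u ∈ κ, ∃ w ∈ SS T E, Adj u w) ∧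
      (z ∈ κ ∨ v1 ∈ κ ∨ ¬ NT802.Conn {x | x ∉ SS T E ∧ x ∉ κ} v1 z) := by
  classical
  have hs : 1 ≤ s := by omega
  obtain ⟨κ, A, B, hEv, hA, hB, hA2, hB2, hκ, hsep⟩ := NT34.small_curves2 (W := SS T E)
    (PW := PL T ω E y b) (base := base) (fun u u' h => ⟨h.1, h.2.1⟩) hW hadj hv hnear
  -- the edges
  have hev : ∀ u w : Pt, Adj u w → ev A B u w ≠ 0 → PL T ω E y b u w ∨ Step v M u w ∨
      (dn (v 0) u ≤ h ∧ dn (v 0) w ≤ h) ∨ (dn (v M) u ≤ h ∧ dn (v M) w ≤ h) := by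
    intro u w h1 h2
    rcases ev_cases h1 h2 with ⟨k1, k2⟩ | ⟨k1, k2⟩ | ⟨k1, k2⟩ | ⟨k1, k2⟩
    · rw [k2]; exact hA u k1
    · rw [k2]
      rcases hA w k1 with h3 | h3 | h3 | h3
      · exact Or.inl (h3.symm hω)
      · exact Or.inr (Or.inl (Step.comm.1 h3))
      · exact Or.inr (Or.inr (Or.inl ⟨h3.2, h3.1⟩))
      · exact Or.inr (Or.inr (Or.inr ⟨h3.2, h3.1⟩))
    · rw [k2]; exact hB u k1
    · rw [k2]
      rcases hB w k1 with h3 | h3 | h3 | h3
      · exact Or.inl (h3.symm hω)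
      · exact Or.inr (Or.inl (Step.comm.1 h3))
      · exact Or.inr (Or.inr (Or.inl ⟨h3.2, h3.1⟩))
      · exact Or.inr (Or.inr (Or.inr ⟨h3.2, h3.1⟩))
  -- distances
  have d0 : ∀ u, a < dn y u → h < dn (v 0) u := by
    intro u hu
    have := H924.dn_triangle y (v 0) u
    omega
  have dM : ∀ u, dn y u < b → h < dn (v M) u := by
    intro u hu
    have h1 := H924.dn_triangle y u (v M)
    have h2 := H924.dn_comm u (v M)
    omega
  have hstep : ∀ u w, Step v M u w → u ∉ SS T E := by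
    rintro u w ⟨i, hi, ⟨h1, _⟩ | ⟨h1, _⟩⟩
    · rw [h1]; exact hv i hi.le
    · rw [h1]; exact hv (i + 1) hi
  obtain ⟨z, hz, hz2⟩ := Zf_main (T := T) (ω := ω) (E := E) (y := y) (s := s) (a := a) (b := b)
    (v1 := v1) hs hEv (by
      intro u huE h1 h2 w h3 h4
      rcases hev u w h3 h4 with h5 | h5 | h5 | h5
      · exact h5.2.2 (Or.inl h2)
      · exact absurd (Or.inl huE) (hstep u w h5)
      · have := d0 u h1; omega
      · have := dM u h2; omega) hadj hv (by omega) (by omega) (by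
      intro t h1 h2
      have hd1 := WI_dn (y := y) hs t
      have hd2 := WO_dn (y := y) hs t
      have e1 := d0 (WI y s t) (by omega)
      have e2 := dM (WI y s t) (by omega)
      have e3 := d0 (WO y s t) (by omega)
      have e4 := dM (WO y s t) (by omega)
      refine ev_congr (adj_WIWO hs t) ?_ ?_ ?_ ?_
      · intro _
        exact hA2 _ (fun h5 => h1 h5.1) (Or.inl e1) (Or.inl e2)
      · intro _
        exact hA2 _ (fun h5 => h2 h5.1) (Or.inl e3) (Or.inl e4)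
      · intro _
        exact hB2 _ (fun h5 => h1 h5.1) (Or.inl e1) (Or.inl e2)
      · intro _
        exact hB2 _ (fun h5 => h2 h5.1) (Or.inl e3) (Or.inl e4)) hv1 (T802.par A v1)
  refine ⟨z, hz, ?_⟩
  obtain ⟨m1, m2, m3, m4, _⟩ := mem_Zf hs hz
  rcases hz2 with ⟨w, h1, h2⟩ | h1
  · left
    rcases hev z w h1 h2 with h3 | ⟨i, hi, ⟨h3, _⟩ | ⟨h3, _⟩⟩ | h3 | h3
    · exact absurd h3.1 m1
    · exact ⟨i, hi.le, h3⟩
    · exact ⟨i + 1, hi, h3⟩
    · have := d0 z (by omega); omega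
    · have := dM z (by omega); omega
  · right
    obtain ⟨i, hi, h2⟩ := hsep z v1 m1 hv1.1 h1
    obtain ⟨k1, k2, k3, k4⟩ := hκ i hi
    exact ⟨i, hi, κ i, k1, k2, k3, k4, h2⟩

theorem conn_path {S : Set Pt} {g : ℕ → Pt} {N : ℕ} (hadj : ∀ i < N, Adj (g i) (g (i + 1)))
    (hS : ∀ i ≤ N, g i ∈ S) {n : ℕ} (hn : n ≤ N) : NT802.Conn S (g 0) (g n) := by
  induction n with
  | zero => exact NT802.Conn.refl (hS 0 hn)
  | succ n ih => exact conn_step (ih (by omega)) (Or.inr (hadj n (by omega))) (hS (n + 1) hn)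

/-- **P2**: a new strand `g 0, …, g N` which between the times `n3` and `n4` crosses an annulus
near the old walls visits the free ball around `z` or around `kz z`, for some `z` in `Zf`. -/
theorem glued_visit (hω : ω ∈ DD V) {base : Pt}
    (hW : ∀ w ∈ SS T E, Linked (PL T ω E y b) w base) (has : a + 1 < s) (hsb : s + 1 < b)
    {g : ℕ → Pt} {N h n3 n4 : ℕ} (hadj : ∀ i < N, Adj (g i) (g (i + 1)))
    (hv : ∀ i ≤ N, g i ∉ SS T E) (hn3 : n3 ≤ N) (hn4 : n4 ≤ N)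
    (hnear : ∀ i, min n3 n4 ≤ i → i ≤ max n3 n4 → ∃ w ∈ SS T E, dn (g i) w ≤ h)
    (hin : dn y (g n3) + h ≤ a) (hout : b + h ≤ dn y (g n4)) :
    ∃ z ∈ Zf T ω E y s a b (g 0), ∃ n ≤ N,
      g n ∈ FB T E (kz (FV T E) (SS T E) (g 0) z h) (4 * h + 4) ∨ g n ∈ FB T E z (2 * h + 2) ∨
      (min n3 n4 ≤ n ∧ n ≤ max n3 n4 ∧ dn (g n) (g 0) ≤ h + 1) := by
  classical
  set M := max n3 n4 - min n3 n4 with hM
  -- the piece, from inside to outside
  set v : ℕ → Pt := fun i => if n3 ≤ n4 then g (n3 + i) else g (n3 - i) with hvdef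
  have hidx : ∀ i ≤ M, ∃ n ≤ N, min n3 n4 ≤ n ∧ n ≤ max n3 n4 ∧ v i = g n := by
    intro i hi
    by_cases h1 : n3 ≤ n4
    · refine ⟨n3 + i, by omega, by omega, by omega, ?_⟩
      simp only [hvdef, if_pos h1]
    · refine ⟨n3 - i, by omega, by omega, by omega, ?_⟩
      simp only [hvdef, if_neg h1]
  have hv0 : v 0 = g n3 := by
    simp only [hvdef, add_zero, Nat.sub_zero, ite_self]
  have hvM : v M = g n4 := by
    by_cases h1 : n3 ≤ n4
    · simp only [hvdef, if_pos h1]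
      congr 1
      omega
    · simp only [hvdef, if_neg h1]
      congr 1
      omega
  have hvadj : ∀ i < M, Adj (v i) (v (i + 1)) := by
    intro i hi
    by_cases h1 : n3 ≤ n4
    · simp only [hvdef, if_pos h1]
      exact hadj (n3 + i) (by omega)
    · simp only [hvdef, if_neg h1]
      have := hadj (n3 - (i + 1)) (by omega)
      rw [show n3 - (i + 1) + 1 = n3 - i by omega] at this
      exact L.adj_symm this
  have hvv : ∀ i ≤ M, v i ∉ SS T E := by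
    intro i hi
    obtain ⟨n, h1, _, _, h2⟩ := hidx i hi
    rw [h2]; exact hv n h1
  have hc : ∀ n ≤ N, NT802.Conn {x | x ∉ SS T E} (g 0) (g n) := fun n hn => conn_path hadj hv hn
  obtain ⟨z, hz, h1⟩ := glued_exists (v1 := g 0) hω hW has hsb hvadj hvv (by
    intro i hi
    obtain ⟨n, h1, h2, h3, h4⟩ := hidx i hi
    rw [h4]
    exact hnear n h2 h3) (by rw [hv0]; exact hin) (by rw [hvM]; exact hout)
    (by rw [hv0]; exact hc n3 hn3)
  have hs : 1 ≤ s := by omega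
  obtain ⟨_, hlink, _⟩ := mem_Zf hs hz
  refine ⟨z, hz, ?_⟩
  rcases h1 with ⟨i, hi, h1⟩ | ⟨i, hi, κ, k1, k2, k3, k4, k5⟩
  · obtain ⟨n, h2, _, _, h3⟩ := hidx i hi
    refine ⟨n, h2, Or.inr (Or.inl ?_)⟩
    rw [← h3, ← h1]
    exact Relation.ReflTransGen.refl
  · obtain ⟨n, h2, h4, h5, h3⟩ := hidx i hi.le
    have hP : NT802.Conn {u | ∃ j ≤ n, u = g j} (g 0) (v i) := by
      rw [h3]
      exact conn_path (S := {u | ∃ j ≤ n, u = g j}) (N := n) (fun j hj => hadj j (by omega))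
        (fun j hj => ⟨j, hj, rfl⟩) le_rfl
    have hPF : {u | ∃ j ≤ n, u = g j} ⊆ FV T E := by
      rintro u ⟨j, hj, rfl⟩
      exact hv j (by omega)
    rcases p2_step (T := T) (E := E) (v1 := g 0) (z0 := z) (x := v i) (κ := κ) (h := h) hlink k1 k3
      k4 k5 hP hPF with ⟨u, ⟨j, hj, rfl⟩, h6⟩ | h6 | h6
    · exact ⟨j, by omega, Or.inl h6⟩
    · exact ⟨n, h2, Or.inr (Or.inl (h3 ▸ h6))⟩
    · exact ⟨n, h2, Or.inr (Or.inr ⟨h4, h5, h3 ▸ h6⟩)⟩

end Vale.Agent.P155.NT730
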