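import Vale.Agent.P155.NT730.GlueB
import Vale.Agent.P155.NT814.US.Strand

/-!
# P155, NT, P2 (helper730): the explored set at the beginning of an excursion, near a far point
-/

namespace Vale.Agent.P155.NT730

open Vale.Agent.P155 T802 Finset NT733 NT Function NT802 NT276 NT814.US

variable {T : Temp} {ω : Conf} {V : Finset Pt} {E : Set Pt} {y : Pt} {s a b : ℕ} {v1 : Pt}

/-- **measurability** of `Zf`, with unordered pairs of partners -/
theorem Zf_congr' {ω' : Conf} {v1' : Pt}
    (h : ∀ v ∈ E, a < dn y v → dn y v < b → Go.PEq ω ω' v)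
    (hv : ∀ z, NT802.Conn {x | x ∉ SS T E} v1 z ↔ NT802.Conn {x | x ∉ SS T E} v1' z) :
    Zf T ω E y s a b v1 = Zf T ω' E y s a b v1' := by
  classical
  have h1 : SStep ω E y a b = SStep ω' E y a b := by
    funext f f'
    apply propext
    constructor
    · rintro ⟨v, w, k1, k2, k3, k4, k5, k6, k7⟩
      rcases h v k1 k2 k3 with ⟨e1, e2⟩ | ⟨e1, e2⟩
      · exact ⟨v, w, k1, k2, k3, k4, by rw [e1]; exact k5, by rw [e2]; exact k6, k7⟩
      · exact ⟨v, w, k1, k2, k3, k4, by rw [e1]; exact k6, by rw [e2]; exact k5, k7⟩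
    · rintro ⟨v, w, k1, k2, k3, k4, k5, k6, k7⟩
      rcases h v k1 k2 k3 with ⟨e1, e2⟩ | ⟨e1, e2⟩
      · exact ⟨v, w, k1, k2, k3, k4, by rw [← e1]; exact k5, by rw [← e2]; exact k6, k7⟩
      · exact ⟨v, w, k1, k2, k3, k4, by rw [← e2]; exact k6, by rw [← e1]; exact k5, k7⟩
  have h2 : Side ω E y a b = Side ω' E y a b := by
    funext f f'
    unfold Side
    rw [h1]
  have h3 : Cand T E y s v1 = Cand T E y s v1' := by
    funext f z
    unfold Cand
    simp only [hv z]
  have h4 : rep T ω E y s a b v1 = rep T ω' E y s a b v1' := by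
    funext f
    unfold rep
    rw [h2, h3]
  unfold Zf
  rw [h3, h4]

/-- `Zf` is the same if the superpositions agree on `E` -/
theorem Zf_congr_E {ω' : Conf} (h : ∀ v ∈ E, Go.PEq ω ω' v) :
    Zf T ω E y s a b v1 = Zf T ω' E y s a b v1 :=
  Zf_congr' (fun v hv _ _ => h v hv) (fun _ => Iff.rfl)

/-! ### the explored set near `y` -/

/-- vertices in the component of a far line point -/
theorem near_comp (hω : ω ∈ DD V) {xS t : ℤ} (hl : (b : ℤ) < |y.1 - xS|) {v : Pt}
    (hv : v ∈ comp ω (xS, t)) (hb : dn y v < b) :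
    ω.1 v ≠ ω.2 v ∧ ∃ k, b ≤ dn y ((SW.suc ω)^[k] v) := by
  have hline : ∀ k : ℤ, b < dn y (xS, k) := by
    intro k
    have h := H904.dn_spec y (xS, k)
    simp only at h
    rw [lt_abs] at hl
    omega
  have hne : v ≠ (xS, t) := by
    rintro rfl
    have := hline t
    omega
  have hsv : Same ω v (xS, t) := L.same_symm hω hv
  have hloop : ω.1 v ≠ ω.2 v := by
    intro he
    -- the component of a double edge has two elements
    have key : ∀ u, Same ω v u → u = v ∨ u = ω.1 v := by
      intro u hu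
      unfold Same at hu
      induction hu with
      | refl => exact Or.inl rfl
      | tail _ h ih =>
        rcases ih with rfl | rfl
        · rcases h with h | h
          · exact Or.inr h
          · exact Or.inr (h.trans he.symm)
        · rcases h with h | h
          · left; rw [h, L.inv1 hω]
          · left; rw [h, he, L.inv2 hω]
    rcases key _ hsv with h | h
    · exact hne h.symm
    · by_cases hvV : v ∈ V
      · have h1 := L.adj1 hω hvV
        rw [← h] at h1
        have h2 := H924.dn_adj h1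
        have h3 := H924.dn_triangle y v (xS, t)
        have h4 := hline t
        omega
      · rw [L.off1 hω hvV] at h
        exact hne h.symm
  refine ⟨hloop, ?_⟩
  have h1 : (xS, t) ∈ comp ω v := hsv
  rw [TC.comp_eq hω hloop] at h1
  obtain ⟨k, _, hk⟩ := h1
  refine ⟨k, ?_⟩
  simp only at hk
  rw [hk]
  exact (hline t).le

/-- **the explored set near a point far from the line and from the tip** -/
theorem near_Eti (hω : ω ∈ DD V) {xS t : ℤ} {i : ℕ} (hl : (b : ℤ) < |y.1 - xS|)
    (htip : b ≤ dn y (go ω (xS, t) i)) (hne : ω.1 (xS, t) ≠ ω.2 (xS, t)) :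
    Near ω (Eti xS ω t i) y b where
  cl v hv hb := by
    rcases hv with ⟨z, hz, hv⟩ | ⟨j, hj, rfl⟩
    · refine ⟨Or.inl ⟨z, hz, ?_⟩, Or.inl ⟨z, hz, ?_⟩⟩
      · exact (show Same ω (xS, z) v from hv).tail (Or.inl rfl)
      · exact (show Same ω (xS, z) v from hv).tail (Or.inr rfl)
    · have hline : b < dn y (xS, t) := by
        have h := H904.dn_spec y (xS, t)
        simp only at h
        rw [lt_abs] at hl
        omega
      rcases j with _ | j
      · rw [Go.go_zero] at hb
        omega
      · have hji : j + 1 < i := by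
          rcases Nat.lt_or_ge (j + 1) i with h | h
          · exact h
          · have : j + 1 = i := by omega
            rw [this] at hb
            omega
        rcases Go.go_partners hω hne j with ⟨h1, h2⟩ | ⟨h1, h2⟩
        · rw [h1, h2]
          exact ⟨Or.inr ⟨j + 2, by omega, rfl⟩, Or.inr ⟨j, by omega, rfl⟩⟩
        · rw [h1, h2]
          exact ⟨Or.inr ⟨j, by omega, rfl⟩, Or.inr ⟨j + 2, by omega, rfl⟩⟩
  loop v hv hb := by
    rcases hv with ⟨z, _, hv⟩ | ⟨j, _, rfl⟩
    · exact (near_comp hω hl hv hb).1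
    · exact (near_comp hω hl (Go.go_mem ω (xS, t) j) hb).1
  out v hv hb := by
    rcases hv with ⟨z, _, hv⟩ | ⟨j, _, rfl⟩
    · exact (near_comp hω hl hv hb).2
    · exact (near_comp hω hl (Go.go_mem ω (xS, t) j) hb).2

variable {xS : ℤ} {q : Pt} {r k : ℕ}

/-- **near_of** -/
theorem near_of (hω : ω ∈ DD T.V) (hr : 1 ≤ r) (hx : (16 * r : ℤ) ≤ |q.1 - xS|)
    (hk : eN T xS ω q r k < Tm.M T.V xS ω) (hl : (b : ℤ) < |y.1 - xS|)
    (htip : b ≤ dn y (gN T xS ω (eN T xS ω q r k))) : Near ω (EN T xS ω q r k) y b :=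
  near_Eti hω hl htip ((walk hω xS).ne_exc hω hr hx hk)

/-- the walls are connected along loop edges near `y` -/
theorem wconnL (hω : ω ∈ DD T.V) (hin : ∀ v, dn y v < b → v ∈ T.closedVerts)
    (hl : (b : ℤ) ≤ |y.1 - xS|) : ∀ u ∈ SS T (EN T xS ω q r k),
    Linked (PL T ω (EN T xS ω q r k) y b) u
      (xS, (Tm.tm T.V xS ω (eN T xS ω q r k)).1 - 1) :=
  fun _ hu => connL hω hin hl hu

/-- away from the polygon: the vertices near `y` are in the closed polygon -/
theorem closed_of_far (h : ∀ f ∉ T.faceSet, b ≤ dn f y) {v : Pt} (hv : dn y v < b) :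
    v ∈ T.closedVerts := by
  by_contra hc
  have h1 : v ∉ T.faceSet := by
    rintro ⟨F, hF, a1, a2, a3, a4⟩
    exact hc ⟨F, hF, by omega, by omega, by omega, by omega⟩
  have h2 := h v h1
  rw [H924.dn_comm] at h2
  omega

/-- the walls near `y` are explored -/
theorem ss_of_far (h : ∀ f ∉ T.faceSet, b ≤ dn f y) {v : Pt} (hv : v ∈ SS T E)
    (hb : dn y v < b) : v ∈ E := by
  rcases hv with h1 | h1
  · exact h1
  · exact absurd (closed_of_far h hb) h1

end Vale.Agent.P155.NT730
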