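import Vale.Agent.P155.NT730.Edge
import Vale.Agent.P155.NT802.Sep

/-!
# P155, NT, P2 (i) (helper730): side classes of the explored strands
-/

namespace Vale.Agent.P155.NT730

open Vale.Agent.P155 T802 Finset NT733 NT Function

/-- `f` and `f'` share an edge which starts at an explored vertex of the annulus and is not an
edge of its loop -/
def SStep (ω : Conf) (E : Set Pt) (y : Pt) (a b : ℕ) (f f' : Pt) : Prop :=
  ∃ v w, v ∈ E ∧ a < dn y v ∧ dn y v < b ∧ Adj v w ∧ w ≠ ω.1 v ∧ w ≠ ω.2 v ∧
    v ∈ corners f ∧ v ∈ corners f' ∧ w ∈ corners f ∧ w ∈ corners f'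

/-- same side class -/
def Side (ω : Conf) (E : Set Pt) (y : Pt) (a b : ℕ) (f f' : Pt) : Prop :=
  Relation.ReflTransGen (SStep ω E y a b) f f'

variable {ω : Conf} {E : Set Pt} {y : Pt} {a b : ℕ} {f f' g : Pt} {A B : Pt → ZMod 2}

theorem SStep.symm (h : SStep ω E y a b f f') : SStep ω E y a b f' f := by
  obtain ⟨v, w, h1, h2, h3, h4, h5, h6, h7, h8, h9, h10⟩ := h
  exact ⟨v, w, h1, h2, h3, h4, h5, h6, h8, h7, h10, h9⟩

theorem Side.refl (f : Pt) : Side ω E y a b f f := Relation.ReflTransGen.refl

theorem Side.symm (h : Side ω E y a b f f') : Side ω E y a b f' f := by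
  unfold Side at h ⊢
  induction h with
  | refl => exact Relation.ReflTransGen.refl
  | tail _ h ih => exact Relation.ReflTransGen.head h.symm ih

theorem Side.trans (h : Side ω E y a b f f') (h' : Side ω E y a b f' g) : Side ω E y a b f g :=
  Relation.ReflTransGen.trans h h'

theorem z2_eq_of : ∀ {p q : ZMod 2}, p + q = 0 → p = q := by decide

/-- **the parity is constant on the side classes** -/
theorem Side.par (h : EvenSet A B)
    (h1 : ∀ v w, v ∈ E → a < dn y v → dn y v < b → Adj v w → ev A B v w ≠ 0 → w = ω.1 v ∨ w = ω.2 v)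
    (hs : Side ω E y a b f f') : T802.par A f = T802.par A f' := by
  unfold Side at hs
  induction hs with
  | refl => rfl
  | @tail g g' _ hst ih =>
    rw [ih]
    obtain ⟨v, w, k1, k2, k3, k4, k5, k6, k7, k8, k9, k10⟩ := hst
    by_cases hne : g = g'
    · rw [hne]
    · have e := par_ev h k4 k7 k8 k9 k10 hne
      apply z2_eq_of
      rw [e]
      by_contra hc
      rcases h1 v w k1 k2 k3 k4 hc with h | h
      · exact k5 h
      · exact k6 h

/-! ### the two faces of an edge -/

/-- upper / right face of the edge -/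
def G1 (u w : Pt) : Pt := (min u.1 w.1, min u.2 w.2)

/-- lower / left face of the edge -/
def G2 (u w : Pt) : Pt := if u.1 = w.1 then (u.1 - 1, min u.2 w.2) else (min u.1 w.1, u.2 - 1)

theorem G_corner {u w : Pt} (h : Adj u w) : (u ∈ corners (G1 u w) ∧ w ∈ corners (G1 u w)) ∧
    (u ∈ corners (G2 u w) ∧ w ∈ corners (G2 u w)) := by
  obtain ⟨x, y⟩ := u
  obtain ⟨p, q⟩ := w
  rcases adj_cases h with h1 | h1 | h1 | h1 <;> simp only [Prod.mk.injEq] at h1 <;>
    obtain ⟨rfl, rfl⟩ := h1
  · rw [show G1 (p, y) (p, y + 1) = (p, y) by simp [G1],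
      show G2 (p, y) (p, y + 1) = (p - 1, y) by simp [G2]]
    simp [mem_corners]
  · rw [show G1 (x, q + 1) (x, q) = (x, q) by simp [G1],
      show G2 (x, q + 1) (x, q) = (x - 1, q) by simp [G2]]
    simp [mem_corners]
  · rw [show G1 (x, q) (x + 1, q) = (x, q) by simp [G1],
      show G2 (x, q) (x + 1, q) = (x, q - 1) by simp [G2]]
    simp [mem_corners]
  · rw [show G1 (p + 1, y) (p, y) = (p, y) by simp [G1],
      show G2 (p + 1, y) (p, y) = (p, y - 1) by simp [G2]]
    simp [mem_corners]

/-- around a vertex: every face is on the side of one of the faces of a given path edge -/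
theorem turn_aux {S : Pt → Pt → Prop} (hr : ∀ f, S f f) (hs : ∀ f f', S f f' → S f' f)
    (ht : ∀ f g k, S f g → S g k → S f k) {v p n : Pt} (hp : Adj v p) (hn : Adj v n) (hpn : p ≠ n)
    (hst : ∀ f f' w, Adj v w → w ≠ p → w ≠ n → v ∈ corners f → v ∈ corners f' → w ∈ corners f →
      w ∈ corners f' → S f f') {f : Pt} (hf : v ∈ corners f) : S f (G1 v n) ∨ S f (G2 v n) := by
  obtain ⟨x, y⟩ := v
  have hE : (x + 1, y) ≠ p → (x + 1, y) ≠ n → S (x, y) (x, y - 1) := fun h1 h2 =>
    hst _ _ (x + 1, y) (by simp [Adj]) h1 h2 (by simp [mem_corners]) (by simp [mem_corners])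
      (by simp [mem_corners]) (by simp [mem_corners])
  have hN : (x, y + 1) ≠ p → (x, y + 1) ≠ n → S (x, y) (x - 1, y) := fun h1 h2 =>
    hst _ _ (x, y + 1) (by simp [Adj]) h1 h2 (by simp [mem_corners]) (by simp [mem_corners])
      (by simp [mem_corners]) (by simp [mem_corners])
  have hW : (x - 1, y) ≠ p → (x - 1, y) ≠ n → S (x - 1, y) (x - 1, y - 1) := fun h1 h2 =>
    hst _ _ (x - 1, y) (by simp [Adj]) h1 h2 (by simp [mem_corners]) (by simp [mem_corners])
      (by simp [mem_corners]) (by simp [mem_corners])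
  have hS : (x, y - 1) ≠ p → (x, y - 1) ≠ n → S (x, y - 1) (x - 1, y - 1) := fun h1 h2 =>
    hst _ _ (x, y - 1) (by simp [Adj]) h1 h2 (by simp [mem_corners]) (by simp [mem_corners])
      (by simp [mem_corners]) (by simp [mem_corners])
  have hf4 : f = (x, y) ∨ f = (x - 1, y) ∨ f = (x, y - 1) ∨ f = (x - 1, y - 1) := by
    obtain ⟨f1, f2⟩ := f
    simp only [mem_corners] at hf
    simp only [Prod.mk.injEq]
    omega
  have hn4 := mem_nbrs.2 hn
  have hp4 := mem_nbrs.2 hp
  simp only [nbrs, mem_insert, mem_singleton] at hn4 hp4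
  have e1 : ∀ z : ℤ, min z (z + 1) = z := fun z => min_eq_left (by omega)
  have e2 : ∀ z : ℤ, min z (z - 1) = z - 1 := fun z => min_eq_right (by omega)
  rcases hn4 with rfl | rfl | rfl | rfl
  · -- n = E
    have g1 : G1 (x, y) (x + 1, y) = (x, y) := by simp [G1]
    have g2 : G2 (x, y) (x + 1, y) = (x, y - 1) := by simp [G2]
    rw [g1, g2]
    rcases hp4 with rfl | rfl | rfl | rfl
    · exact absurd rfl hpn
    · have kN := hN (by simp only [ne_eq, Prod.mk.injEq]; omega) (by simp only [ne_eq, Prod.mk.injEq]; omega)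
      have kS := hS (by simp only [ne_eq, Prod.mk.injEq]; omega) (by simp only [ne_eq, Prod.mk.injEq]; omega)
      rcases hf4 with rfl | rfl | rfl | rfl
      · exact Or.inl (hr _)
      · exact Or.inl (hs _ _ kN)
      · exact Or.inr (hr _)
      · exact Or.inr (hs _ _ kS)
    · have kW := hW (by simp only [ne_eq, Prod.mk.injEq]; omega) (by simp only [ne_eq, Prod.mk.injEq]; omega)
      have kS := hS (by simp only [ne_eq, Prod.mk.injEq]; omega) (by simp only [ne_eq, Prod.mk.injEq]; omega)
      rcases hf4 with rfl | rfl | rfl | rfl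
      · exact Or.inl (hr _)
      · exact Or.inr (ht _ _ _ kW (hs _ _ kS))
      · exact Or.inr (hr _)
      · exact Or.inr (hs _ _ kS)
    · have kN := hN (by simp only [ne_eq, Prod.mk.injEq]; omega) (by simp only [ne_eq, Prod.mk.injEq]; omega)
      have kW := hW (by simp only [ne_eq, Prod.mk.injEq]; omega) (by simp only [ne_eq, Prod.mk.injEq]; omega)
      rcases hf4 with rfl | rfl | rfl | rfl
      · exact Or.inl (hr _)
      · exact Or.inl (hs _ _ kN)
      · exact Or.inr (hr _)
      · exact Or.inl (ht _ _ _ (hs _ _ kW) (hs _ _ kN))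
  · -- n = W
    have g1 : G1 (x, y) (x - 1, y) = (x - 1, y) := by simp [G1]
    have g2 : G2 (x, y) (x - 1, y) = (x - 1, y - 1) := by
      have h0 : ¬ x = x - 1 := by omega
      simp [G2, h0]
    rw [g1, g2]
    rcases hp4 with rfl | rfl | rfl | rfl
    · have kN := hN (by simp only [ne_eq, Prod.mk.injEq]; omega) (by simp only [ne_eq, Prod.mk.injEq]; omega)
      have kS := hS (by simp only [ne_eq, Prod.mk.injEq]; omega) (by simp only [ne_eq, Prod.mk.injEq]; omega)
      rcases hf4 with rfl | rfl | rfl | rfl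
      · exact Or.inl kN
      · exact Or.inl (hr _)
      · exact Or.inr kS
      · exact Or.inr (hr _)
    · exact absurd rfl hpn
    · have kE := hE (by simp only [ne_eq, Prod.mk.injEq]; omega) (by simp only [ne_eq, Prod.mk.injEq]; omega)
      have kS := hS (by simp only [ne_eq, Prod.mk.injEq]; omega) (by simp only [ne_eq, Prod.mk.injEq]; omega)
      rcases hf4 with rfl | rfl | rfl | rfl
      · exact Or.inr (ht _ _ _ kE kS)
      · exact Or.inl (hr _)
      · exact Or.inr kS
      · exact Or.inr (hr _)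
    · have kE := hE (by simp only [ne_eq, Prod.mk.injEq]; omega) (by simp only [ne_eq, Prod.mk.injEq]; omega)
      have kN := hN (by simp only [ne_eq, Prod.mk.injEq]; omega) (by simp only [ne_eq, Prod.mk.injEq]; omega)
      rcases hf4 with rfl | rfl | rfl | rfl
      · exact Or.inl kN
      · exact Or.inl (hr _)
      · exact Or.inl (ht _ _ _ (hs _ _ kE) kN)
      · exact Or.inr (hr _)
  · -- n = N
    have g1 : G1 (x, y) (x, y + 1) = (x, y) := by simp [G1]
    have g2 : G2 (x, y) (x, y + 1) = (x - 1, y) := by simp [G2]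
    rw [g1, g2]
    rcases hp4 with rfl | rfl | rfl | rfl
    · have kW := hW (by simp only [ne_eq, Prod.mk.injEq]; omega) (by simp only [ne_eq, Prod.mk.injEq]; omega)
      have kS := hS (by simp only [ne_eq, Prod.mk.injEq]; omega) (by simp only [ne_eq, Prod.mk.injEq]; omega)
      rcases hf4 with rfl | rfl | rfl | rfl
      · exact Or.inl (hr _)
      · exact Or.inr (hr _)
      · exact Or.inr (ht _ _ _ kS (hs _ _ kW))
      · exact Or.inr (hs _ _ kW)
    · have kE := hE (by simp only [ne_eq, Prod.mk.injEq]; omega) (by simp only [ne_eq, Prod.mk.injEq]; omega)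
      have kS := hS (by simp only [ne_eq, Prod.mk.injEq]; omega) (by simp only [ne_eq, Prod.mk.injEq]; omega)
      rcases hf4 with rfl | rfl | rfl | rfl
      · exact Or.inl (hr _)
      · exact Or.inr (hr _)
      · exact Or.inl (hs _ _ kE)
      · exact Or.inl (ht _ _ _ (hs _ _ kS) (hs _ _ kE))
    · exact absurd rfl hpn
    · have kE := hE (by simp only [ne_eq, Prod.mk.injEq]; omega) (by simp only [ne_eq, Prod.mk.injEq]; omega)
      have kW := hW (by simp only [ne_eq, Prod.mk.injEq]; omega) (by simp only [ne_eq, Prod.mk.injEq]; omega)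
      rcases hf4 with rfl | rfl | rfl | rfl
      · exact Or.inl (hr _)
      · exact Or.inr (hr _)
      · exact Or.inl (hs _ _ kE)
      · exact Or.inr (hs _ _ kW)
  · -- n = S
    have g1 : G1 (x, y) (x, y - 1) = (x, y - 1) := by simp [G1]
    have g2 : G2 (x, y) (x, y - 1) = (x - 1, y - 1) := by simp [G2]
    rw [g1, g2]
    rcases hp4 with rfl | rfl | rfl | rfl
    · have kN := hN (by simp only [ne_eq, Prod.mk.injEq]; omega) (by simp only [ne_eq, Prod.mk.injEq]; omega)
      have kW := hW (by simp only [ne_eq, Prod.mk.injEq]; omega) (by simp only [ne_eq, Prod.mk.injEq]; omega)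
      rcases hf4 with rfl | rfl | rfl | rfl
      · exact Or.inr (ht _ _ _ kN kW)
      · exact Or.inr kW
      · exact Or.inl (hr _)
      · exact Or.inr (hr _)
    · have kE := hE (by simp only [ne_eq, Prod.mk.injEq]; omega) (by simp only [ne_eq, Prod.mk.injEq]; omega)
      have kN := hN (by simp only [ne_eq, Prod.mk.injEq]; omega) (by simp only [ne_eq, Prod.mk.injEq]; omega)
      rcases hf4 with rfl | rfl | rfl | rfl
      · exact Or.inl kE
      · exact Or.inl (ht _ _ _ (hs _ _ kN) kE)
      · exact Or.inl (hr _)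
      · exact Or.inr (hr _)
    · have kE := hE (by simp only [ne_eq, Prod.mk.injEq]; omega) (by simp only [ne_eq, Prod.mk.injEq]; omega)
      have kW := hW (by simp only [ne_eq, Prod.mk.injEq]; omega) (by simp only [ne_eq, Prod.mk.injEq]; omega)
      rcases hf4 with rfl | rfl | rfl | rfl
      · exact Or.inl kE
      · exact Or.inr kW
      · exact Or.inl (hr _)
      · exact Or.inr (hr _)
    · exact absurd rfl hpn

end Vale.Agent.P155.NT730
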