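import Vale.Agent.P155.NT730.Count

/-!
# P155, NT, P2 (i) (helper730): the finite set `Zf` of free vertices at a ring
-/

namespace Vale.Agent.P155.NT730

open Vale.Agent.P155 T802 Finset NT733 NT Function

/-! ### arcs of a periodic sequence -/

theorem tele' (χ : ℕ → ZMod 2) (M : ℕ) : ∑ i ∈ range M, (χ i + χ (i + 1)) = χ 0 + χ M := by
  induction M with
  | zero => rw [sum_range_zero]; exact (T802.z2 _).symm
  | succ M ih =>
    rw [sum_range_succ, ih]
    have : ∀ p q r : ZMod 2, p + q + (q + r) = p + r := by decide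
    exact this _ _ _

theorem z2_one' : ∀ p : ZMod 2, p ≠ 1 → p = 0 := by decide

theorem exists_arc {n : ℕ} {x p : ℕ → ZMod 2} {FF : ℕ → Prop} [DecidablePred FF]
    (hx : ∀ j, x (j + n) = x j) (hp : ∀ j, p (j + n) = p j)
    (hFF : ∀ j, FF (j + n) ↔ FF j) (hpar : ∀ j, p j + p (j + 1) = x j)
    (hsum : ∑ t ∈ range n, (if FF t then x t else 0) = 1) :
    ∃ i0 i1, i0 + 1 < i1 ∧ ¬ FF i0 ∧ ¬ FF i1 ∧ (∀ t, i0 < t → t < i1 → FF t) ∧
      p (i0 + 1) ≠ p i1 ∧ ∃ t, i0 < t ∧ t < i1 ∧ x t = 1 := by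
  classical
  -- an index off `FF`
  obtain ⟨t0, ht0⟩ : ∃ t0, ¬ FF t0 := by
    by_contra hc
    push Not at hc
    have h1 : ∑ t ∈ range n, x t = 1 := by
      rw [← hsum]
      exact sum_congr rfl fun t _ => (if_pos (hc t)).symm
    rw [← sum_congr rfl (fun t _ => hpar t), tele' p n] at h1
    have h2 : p n = p 0 := by
      have := hp 0
      rwa [zero_add] at this
    rw [h2, T802.z2] at h1
    exact absurd h1 (by decide)
  set w : ℕ → ZMod 2 := fun t => if FF t then x t else 0 with hw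
  have hwp : ∀ j, w (j + n) = w j := by
    intro j
    simp only [hw, hFF j, hx j]
  set S : ℕ → ZMod 2 := fun j => ∑ l ∈ range j, w (t0 + l) with hS
  have hS8 : S n = 1 := by
    simp only [hS]
    rw [sum_per hwp t0]
    exact hsum
  have hex : ∃ j, ¬ FF (t0 + j) ∧ S j = 1 := ⟨n, by rw [hFF]; exact ht0, hS8⟩
  obtain ⟨h11, h12⟩ := Nat.find_spec hex
  have hmin : ∀ j < Nat.find hex, ¬ (¬ FF (t0 + j) ∧ S j = 1) := fun j hj => Nat.find_min hex hj
  set i1 := Nat.find hex with hi1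
  have hi1pos : i1 ≠ 0 := by
    intro h
    rw [h] at h12
    simp only [hS, sum_range_zero] at h12
    exact absurd h12 (by decide)
  set P : ℕ → Prop := fun j => ¬ FF (t0 + j) with hP
  set i0 := Nat.findGreatest P (i1 - 1) with hi0
  have hP0 : P 0 := by simp only [hP, add_zero]; exact ht0
  have hPi0 : P i0 := Nat.findGreatest_spec (P := P) (Nat.zero_le (i1 - 1)) hP0
  have hi0le : i0 ≤ i1 - 1 := Nat.findGreatest_le _
  have hin : ∀ j, i0 < j → j < i1 → FF (t0 + j) := by
    intro j hj hj'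
    by_contra hc
    exact Nat.findGreatest_is_greatest hj (by omega) hc
  have hSi0 : S i0 = 0 := by
    apply z2_one'
    intro h
    exact hmin i0 (by omega) ⟨hPi0, h⟩
  have hc0 : w (t0 + i0) = 0 := if_neg hPi0
  have hlt : i0 + 1 < i1 := by
    by_contra hc
    have h1 : i1 = i0 + 1 := by omega
    rw [h1] at h12
    simp only [hS] at h12 hSi0
    rw [sum_range_succ, hSi0, hc0] at h12
    exact absurd h12 (by decide)
  clear_value i0 i1
  obtain ⟨m, hm⟩ : ∃ m, i1 = i0 + 1 + m := ⟨i1 - i0 - 1, by omega⟩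
  have h1 : S i1 = S (i0 + 1) + ∑ l ∈ range m, w (t0 + (i0 + 1 + l)) := by
    simp only [hS]
    rw [hm, sum_range_add]
  have h2 : S (i0 + 1) = 0 := by
    simp only [hS] at hSi0 ⊢
    rw [sum_range_succ, hSi0, hc0, add_zero]
  rw [h12, h2, zero_add] at h1
  have hwx : ∀ l ∈ range m, w (t0 + (i0 + 1 + l)) = x (t0 + (i0 + 1 + l)) := by
    intro l hl
    rw [mem_range] at hl
    exact if_pos (hin (i0 + 1 + l) (by omega) (by omega))
  rw [sum_congr rfl hwx] at h1
  refine ⟨t0 + i0, t0 + i1, by omega, hPi0, h11, ?_, ?_, ?_⟩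
  · intro t h3 h4
    have := hin (t - t0) (by omega) (by omega)
    rwa [Nat.add_sub_cancel' (by omega)] at this
  · intro he
    have h3 : ∑ l ∈ range m, x (t0 + (i0 + 1 + l)) =
        ∑ l ∈ range m, (p (t0 + i0 + 1 + l) + p (t0 + i0 + 1 + (l + 1))) := by
      apply sum_congr rfl
      intro l _
      rw [← hpar]
      congr 2 <;> omega
    rw [h3, tele' (fun l => p (t0 + i0 + 1 + l)) m, add_zero] at h1
    have h4 : t0 + i0 + 1 + m = t0 + i1 := by omega
    rw [h4, he, T802.z2] at h1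
    exact absurd h1 (by decide)
  · obtain ⟨l, hl, hne⟩ := exists_ne_zero_of_sum_ne_zero (s := range m)
      (f := fun l => x (t0 + (i0 + 1 + l))) (by rw [← h1]; decide)
    rw [mem_range] at hl
    refine ⟨t0 + (i0 + 1 + l), by omega, by omega, ?_⟩
    by_contra hc
    exact hne (z2_one' _ hc)

/-! ### the definition -/

/-- the ring face `f` is old, and `z` is the inner end of one of its free-free ring edges, in the
free component of `v1` -/
def Cand (T : Temp) (E : Set Pt) (y : Pt) (s : ℕ) (v1 f z : Pt) : Prop :=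
  ∃ t, (f = R y s t ∨ f = R y s (t + 1)) ∧ z = WI y s t ∧ WI y s t ∉ SS T E ∧
    WO y s t ∉ SS T E ∧ f ∉ OE T E ∧ NT802.Conn {x | x ∉ SS T E} v1 z

/-- the representative of the side class of `f` -/
noncomputable def rep (T : Temp) (ω : Conf) (E : Set Pt) (y : Pt) (s a b : ℕ) (v1 f : Pt) : Pt :=
  Classical.epsilon (fun z => ∃ f', Side ω E y a b f f' ∧ Cand T E y s v1 f' z)

open Classical in
/-- **the set of `e`'s** -/
noncomputable def Zf (T : Temp) (ω : Conf) (E : Set Pt) (y : Pt) (s a b : ℕ) (v1 : Pt) :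
    Finset Pt :=
  ((box y s).filter (fun f => ∃ z, Cand T E y s v1 f z)).image (rep T ω E y s a b v1)

variable {T : Temp} {ω : Conf} {E : Set Pt} {y : Pt} {s a b : ℕ} {v1 f f' z : Pt}
  {A B : Pt → ZMod 2} {V : Finset Pt}

theorem Cand.dn (hs : 1 ≤ s) (h : Cand T E y s v1 f z) : dn y f = s := by
  obtain ⟨t, h | h, _⟩ := h
  · rw [h, R_dn hs]
  · rw [h, R_dn hs]

theorem Cand.corner (hs : 1 ≤ s) (h : Cand T E y s v1 f z) : z ∈ corners f := by
  obtain ⟨t, h1, h2, _⟩ := h
  rcases h1 with h1 | h1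
  · rw [h1, h2]; exact (WI_corner hs t).1
  · rw [h1, h2]; exact (WI_corner hs t).2

theorem rep_congr (h : Side ω E y a b f f') : rep T ω E y s a b v1 f = rep T ω E y s a b v1 f' := by
  unfold rep
  congr 1
  funext z
  apply propext
  constructor
  · rintro ⟨g, h1, h2⟩
    exact ⟨g, h.symm.trans h1, h2⟩
  · rintro ⟨g, h1, h2⟩
    exact ⟨g, h.trans h1, h2⟩

theorem rep_spec (h : Cand T E y s v1 f z) : ∃ f', Side ω E y a b f f' ∧
    Cand T E y s v1 f' (rep T ω E y s a b v1 f) :=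
  Classical.epsilon_spec (p := fun z => ∃ f', Side ω E y a b f f' ∧ Cand T E y s v1 f' z)
    ⟨z, f, Side.refl f, h⟩

theorem mem_Zf' (hs : 1 ≤ s) : z ∈ Zf T ω E y s a b v1 ↔
    ∃ f z0, Cand T E y s v1 f z0 ∧ rep T ω E y s a b v1 f = z := by
  classical
  unfold Zf
  rw [mem_image]
  constructor
  · rintro ⟨f, hf, h⟩
    rw [mem_filter] at hf
    obtain ⟨z0, hz⟩ := hf.2
    exact ⟨f, z0, hz, h⟩
  · rintro ⟨f, z0, hz, h⟩
    refine ⟨f, ?_, h⟩
    rw [mem_filter]
    exact ⟨J.dn_le_iff.1 (hz.dn hs).le, z0, hz⟩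

/-- the members of `Zf` -/
theorem mem_Zf (hs : 1 ≤ s) (h : z ∈ Zf T ω E y s a b v1) : z ∉ SS T E ∧
    NT802.Conn {x | x ∉ SS T E} v1 z ∧ dn y z ≤ s ∧ s ≤ dn y z + 1 ∧
    ∃ w ∈ SS T E, dn z w ≤ 1 := by
  rw [mem_Zf' hs] at h
  obtain ⟨f, z0, h1, h2⟩ := h
  obtain ⟨f', _, h3⟩ := rep_spec (ω := ω) (a := a) (b := b) h1
  rw [h2] at h3
  have hc := h3.corner hs
  obtain ⟨t, _, k2, k3, _, k5, k6⟩ := h3
  have hd := WI_dn (y := y) hs t
  rw [← k2] at hd k3
  refine ⟨k3, k6, hd.2, hd.1, ?_⟩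
  obtain ⟨q, hq1, hq2⟩ := exists_corner k5
  refine ⟨q, hq2, ?_⟩
  rw [H904.dn_le_iff]
  rw [mem_corners] at hc hq1
  rw [abs_le, abs_le]
  push_cast
  omega

/-- **the count** -/
theorem Zf_card (hω : ω ∈ DD V) (hN : Near ω E y b) (hSE : ∀ v ∈ SS T E, dn y v < b → v ∈ E)
    (has : a + 1 < s) (hsb : s + 1 < b) :
    (Zf T ω E y s a b v1).card ≤ 2 * (NX ω y a (s - 1) + NX ω y (s + 1) b) := by
  classical
  have hs : 1 ≤ s := by omega
  have hfin : ∀ r1 r2, {v | ∃ m, ACr ω y r1 r2 v m}.Finite := fun r1 r2 =>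
    V.finite_toSet.subset (fun v ⟨_, hv⟩ => L.mem_V_of_ne hω hv.loop)
  set S1 := (hfin a (s - 1)).toFinset with hS1
  set S2 := (hfin (s + 1) b).toFinset with hS2
  have hc1 : S1.card = NX ω y a (s - 1) := by
    unfold NX
    rw [Set.ncard_eq_toFinset_card _ (hfin a (s - 1))]
  have hc2 : S2.card = NX ω y (s + 1) b := by
    unfold NX
    rw [Set.ncard_eq_toFinset_card _ (hfin (s + 1) b)]
  have hsub : Zf T ω E y s a b v1 ⊆
      ((S1 ∪ S2).image (fun u => rep T ω E y s a b v1 (G1 u (SW.suc ω u)))) ∪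
      ((S1 ∪ S2).image (fun u => rep T ω E y s a b v1 (G2 u (SW.suc ω u)))) := by
    intro z hz
    rw [mem_Zf' hs] at hz
    obtain ⟨f, z0, h1, h2⟩ := hz
    have hfd := h1.dn hs
    have hf5 : f ∉ OE T E := by
      obtain ⟨t, _, _, _, _, k5, _⟩ := h1
      exact k5
    obtain ⟨q, hq1, hq2⟩ := exists_corner hf5
    have hqd : s ≤ dn y q + 1 ∧ dn y q ≤ s + 1 := by
      rw [dn_eq_iff] at hfd
      rw [mem_corners] at hq1
      have h3 := H904.dn_spec y q
      omega
    have hqE := hSE q hq2 (by omega)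
    obtain ⟨j, h3, h4⟩ := exists_cross hω hN hqE hqd.1 hqd.2 has hsb
    have hl := hN.loop q hqE (by omega)
    have h5 := side_along (a := a) (b := b) hω hl h3 hq1 j le_rfl
    have h6 : (SW.suc ω)^[j] q ∈ S1 ∪ S2 := by
      rw [mem_union, hS1, hS2, Set.Finite.mem_toFinset, Set.Finite.mem_toFinset]
      exact h4
    rw [mem_union, mem_image, mem_image]
    rcases h5 with h5 | h5
    · exact Or.inl ⟨_, h6, by rw [← rep_congr h5, h2]⟩
    · exact Or.inr ⟨_, h6, by rw [← rep_congr h5, h2]⟩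
  have h1 := card_le_card hsub
  have h2 := card_union_le ((S1 ∪ S2).image (fun u => rep T ω E y s a b v1 (G1 u (SW.suc ω u))))
    ((S1 ∪ S2).image (fun u => rep T ω E y s a b v1 (G2 u (SW.suc ω u))))
  have h3 := card_image_le (s := S1 ∪ S2) (f := fun u => rep T ω E y s a b v1 (G1 u (SW.suc ω u)))
  have h4 := card_image_le (s := S1 ∪ S2) (f := fun u => rep T ω E y s a b v1 (G2 u (SW.suc ω u)))
  have h5 := card_union_le S1 S2
  omega

/-- **measurability**: `Zf` depends only on `E` and the loop edges at the explored vertices of the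
annulus (and the free component of `v1`) -/
theorem Zf_congr {ω' : Conf} {v1' : Pt}
    (h : ∀ v ∈ E, a < dn y v → dn y v < b → ω.1 v = ω'.1 v ∧ ω.2 v = ω'.2 v)
    (hv : ∀ z, NT802.Conn {x | x ∉ SS T E} v1 z ↔ NT802.Conn {x | x ∉ SS T E} v1' z) :
    Zf T ω E y s a b v1 = Zf T ω' E y s a b v1' := by
  classical
  have h1 : SStep ω E y a b = SStep ω' E y a b := by
    funext f f'
    apply propext
    constructor
    · rintro ⟨v, w, k1, k2, k3, k4, k5, k6, k7⟩
      obtain ⟨e1, e2⟩ := h v k1 k2 k3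
      exact ⟨v, w, k1, k2, k3, k4, e1 ▸ k5, e2 ▸ k6, k7⟩
    · rintro ⟨v, w, k1, k2, k3, k4, k5, k6, k7⟩
      obtain ⟨e1, e2⟩ := h v k1 k2 k3
      exact ⟨v, w, k1, k2, k3, k4, e1.symm ▸ k5, e2.symm ▸ k6, k7⟩
  have h2 : Side ω E y a b = Side ω' E y a b := by
    funext f f'
    unfold Side
    rw [h1]
  have h3 : Cand T E y s v1 = Cand T E y s v1' := by
    funext f z
    unfold Cand
    simp only [hv z]
  have h4 : rep T ω E y s a b v1 = rep T ω' E y s a b v1' := by
    funext f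
    unfold rep
    rw [h2, h3]
  unfold Zf
  rw [h3, h4]

/-! ### the main property -/

theorem around_par (h : EvenSet A B) {z f : Pt} (hz : ∀ w, Adj z w → ev A B z w = 0)
    (hf : z ∈ corners f) : T802.par A f = T802.par A z := by
  obtain ⟨x, t⟩ := z
  have e1 : A (x, t) = 0 := by
    have := hz (x, t + 1) (by simp [Adj])
    rwa [ev_up] at this
  have e2 : A (x, t - 1) = 0 := by
    have := hz (x, t - 1) (by simp [Adj])
    rw [ev_comm] at this
    have h2 := ev_up (A := A) (B := B) x (t - 1)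
    rw [sub_add_cancel] at h2
    rwa [h2] at this
  have e3 : B (x, t) = 0 := by
    have := hz (x + 1, t) (by simp [Adj])
    rwa [ev_right] at this
  have e4 : B (x - 1, t) = 0 := by
    have := hz (x - 1, t) (by simp [Adj])
    rw [ev_comm] at this
    have h2 := ev_right (A := A) (B := B) (x - 1) t
    rw [sub_add_cancel] at h2
    rwa [h2] at this
  refine par_around h e1 e2 e3 e4 (mem_facesAt.2 hf) (mem_facesAt.2 ?_)
  rw [mem_corners]; simp

theorem conn_step {S : Set Pt} {u v w : Pt} (h : NT802.Conn S u v) (hvw : w = v ∨ Adj v w)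
    (hw : w ∈ S) : NT802.Conn S u w := by
  rcases hvw with rfl | h1
  · exact h
  · exact h.trans (NT802.Conn.step h.right hw h1)

/-- **P2 (i)** -/
theorem Zf_main (hs : 1 ≤ s) (hEv : EvenSet A B)
    (H1 : ∀ v ∈ E, a < dn y v → dn y v < b → ∀ w, Adj v w → ev A B v w ≠ 0 →
      w = ω.1 v ∨ w = ω.2 v)
    {v : ℕ → Pt} {M : ℕ} (hadj : ∀ i < M, Adj (v i) (v (i + 1))) (hv : ∀ i ≤ M, v i ∉ SS T E)
    (hin : dn y (v 0) < s) (hout : s < dn y (v M))
    (H2 : ∀ t, WI y s t ∉ SS T E → WO y s t ∉ SS T E →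
      ev A B (WI y s t) (WO y s t) = ev (pathA v M) (pathB v M) (WI y s t) (WO y s t))
    (hv1 : NT802.Conn {x | x ∉ SS T E} v1 (v 0)) (p : ZMod 2) :
    ∃ z ∈ Zf T ω E y s a b v1, (∃ w, Adj z w ∧ ev A B z w ≠ 0) ∨ T802.par A z ≠ p := by
  classical
  set FF : ℕ → Prop := fun t => WI y s t ∉ SS T E ∧ WO y s t ∉ SS T E with hFF
  -- the path does not use the other ring edges
  have hpath : ∀ t, ev (pathA v M) (pathB v M) (WI y s t) (WO y s t) ≠ 0 →
      FF t ∧ ∃ i < M, (v i = WI y s t ∧ v (i + 1) = WO y s t) ∨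
        (v i = WO y s t ∧ v (i + 1) = WI y s t) := by
    intro t ht
    rw [ev_path] at ht
    obtain ⟨i, hi, hne⟩ := exists_ne_zero_of_sum_ne_zero ht
    rw [mem_range] at hi
    rw [ev_edge (adj_WIWO hs t)] at hne
    rcases ind_ne_zero hne with ⟨h1, h2⟩ | ⟨h1, h2⟩
    · refine ⟨⟨?_, ?_⟩, i, hi, Or.inl ⟨h1, h2⟩⟩
      · rw [← h1]; exact hv i hi.le
      · rw [← h2]; exact hv (i + 1) hi
    · refine ⟨⟨?_, ?_⟩, i, hi, Or.inr ⟨h1, h2⟩⟩
      · rw [← h2]; exact hv (i + 1) hi
      · rw [← h1]; exact hv i hi.le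
  have hcross : ∑ t ∈ range (8 * s), (if FF t then ev A B (WI y s t) (WO y s t) else 0) = 1 := by
    have e1 : ∑ t ∈ range (8 * s), (if FF t then ev A B (WI y s t) (WO y s t) else 0) =
        ∑ t ∈ range (8 * s), ev (pathA v M) (pathB v M) (WI y s t) (WO y s t) := by
      apply sum_congr rfl
      intro t _
      by_cases h : FF t
      · rw [if_pos h]; exact H2 t h.1 h.2
      · rw [if_neg h]
        by_contra hc
        exact h (hpath t (Ne.symm hc)).1
    rw [e1, cross_path hs hadj]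
    have e2 : Win y s (v 0) := by
      have := H904.dn_spec y (v 0)
      unfold Win
      omega
    have e3 : ¬ Win y s (v M) := by
      have h1 := H904.dn_spec y (v M)
      unfold Win
      omega
    unfold wn
    rw [ind_true e2, ind_false e3, add_zero]
  obtain ⟨i0, i1, hlt, h0, h1, hbet, hne, t, ht0, ht1, hxt⟩ := exists_arc (n := 8 * s)
    (x := fun t => ev A B (WI y s t) (WO y s t)) (p := fun t => T802.par A (R y s t)) (FF := FF)
    (fun j => by simp only [WI_per, WO_per]) (fun j => by simp only [R_per])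
    (fun j => by simp only [hFF, WI_per, WO_per]) (fun j => par_ring hEv hs j) hcross
  -- the arc is in the component of `v1`
  have hcv : ∀ i ≤ M, NT802.Conn {x | x ∉ SS T E} v1 (v i) := by
    intro i
    induction i with
    | zero => intro _; exact hv1
    | succ i ih =>
      intro hi
      exact conn_step (ih (by omega)) (Or.inr (hadj i (by omega))) (hv (i + 1) hi)
  have hct : NT802.Conn {x | x ∉ SS T E} v1 (WI y s t) := by
    have hFt := hbet t ht0 ht1
    have hx : ev (pathA v M) (pathB v M) (WI y s t) (WO y s t) ≠ 0 := by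
      rw [← H2 t hFt.1 hFt.2, hxt]
      decide
    obtain ⟨_, i, hi, h2 | h2⟩ := hpath t hx
    · rw [← h2.1]; exact hcv i hi.le
    · rw [← h2.2]; exact hcv (i + 1) hi
  have hup : ∀ k, t + k < i1 → NT802.Conn {x | x ∉ SS T E} v1 (WI y s (t + k)) := by
    intro k
    induction k with
    | zero => intro _; exact hct
    | succ k ih =>
      intro hk
      have hF := hbet (t + (k + 1)) (by omega) hk
      exact conn_step (ih (by omega)) (WI_next hs (t + k)) hF.1
  have hdown : ∀ k, i0 + k < t → NT802.Conn {x | x ∉ SS T E} v1 (WI y s (t - k)) := by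
    intro k
    induction k with
    | zero => intro _; exact hct
    | succ k ih =>
      intro hk
      have hF := hbet (t - (k + 1)) (by omega) (by omega)
      have hnx := WI_next (y := y) hs (t - (k + 1))
      rw [show t - (k + 1) + 1 = t - k by omega] at hnx
      refine conn_step (ih (by omega)) ?_ hF.1
      rcases hnx with h | h
      · exact Or.inl h.symm
      · exact Or.inr (L.adj_symm h)
  have hall : ∀ j, i0 < j → j < i1 → NT802.Conn {x | x ∉ SS T E} v1 (WI y s j) := by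
    intro j hj0 hj1
    rcases le_total t j with h | h
    · have := hup (j - t) (by omega)
      rwa [Nat.add_sub_cancel' h] at this
    · by_cases h2 : j = t
      · rw [h2]; exact hct
      · have := hdown (t - j) (by omega)
        rwa [show t - (t - j) = j by omega] at this
  -- the two end faces
  have hold : ∀ j, ¬ FF j → R y s j ∉ OE T E ∧ R y s (j + 1) ∉ OE T E := by
    intro j hj
    simp only [hFF] at hj
    by_cases hw : WI y s j ∈ SS T E
    · exact ⟨notMem_OE_of (WI_corner hs j).1 hw, notMem_OE_of (WI_corner hs j).2 hw⟩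
    · have hw' : WO y s j ∈ SS T E := by
        by_contra hc
        exact hj ⟨hw, hc⟩
      exact ⟨notMem_OE_of (WO_corner hs j).1 hw', notMem_OE_of (WO_corner hs j).2 hw'⟩
  have hC0 : Cand T E y s v1 (R y s (i0 + 1)) (WI y s (i0 + 1)) :=
    ⟨i0 + 1, Or.inl rfl, rfl, (hbet (i0 + 1) (by omega) hlt).1, (hbet (i0 + 1) (by omega) hlt).2,
      (hold i0 h0).2, hall (i0 + 1) (by omega) hlt⟩
  have hC1 : Cand T E y s v1 (R y s i1) (WI y s (i1 - 1)) :=
    ⟨i1 - 1, Or.inr (by rw [Nat.sub_add_cancel (by omega)]), rfl,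
      (hbet (i1 - 1) (by omega) (by omega)).1, (hbet (i1 - 1) (by omega) (by omega)).2,
      (hold i1 h1).1, hall (i1 - 1) (by omega) (by omega)⟩
  -- one of them has the wrong parity
  have key : ∀ g z0, Cand T E y s v1 g z0 → T802.par A g ≠ p →
      ∃ z ∈ Zf T ω E y s a b v1, (∃ w, Adj z w ∧ ev A B z w ≠ 0) ∨ T802.par A z ≠ p := by
    intro g z0 hC hgp
    refine ⟨rep T ω E y s a b v1 g, (mem_Zf' hs).2 ⟨g, z0, hC, rfl⟩, ?_⟩
    obtain ⟨f', hs1, hs2⟩ := rep_spec (ω := ω) (a := a) (b := b) hC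
    by_cases hw : ∃ w, Adj (rep T ω E y s a b v1 g) w ∧ ev A B (rep T ω E y s a b v1 g) w ≠ 0
    · exact Or.inl hw
    · right
      push Not at hw
      rw [← around_par hEv hw (hs2.corner hs), ← Side.par hEv
        (fun v w k1 k2 k3 k4 k5 => H1 v k1 k2 k3 w k4 k5) hs1]
      exact hgp
  by_cases hp0 : T802.par A (R y s (i0 + 1)) = p
  · refine key _ _ hC1 ?_
    intro h
    exact hne (hp0.trans h.symm)
  · exact key _ _ hC0 hp0

end Vale.Agent.P155.NT730
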